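import Mathlib

/-!
Modules over a positively graded algebra with an integer grading given by projections, the degree
components of their homomorphisms, and the graded dimensions cut out by degree zero idempotents.
-/

universe u v w

namespace Vale.Agent.P195.Graded

variable {k : Type v} [Field k] {R : Type u} [Ring R] [Algebra k R]
variable (𝒜 : ℕ → Submodule k R)

/-- A grading of an `R`-module by the integers, given by the projections. -/
structure Grd (X : Type w) [AddCommGroup X] [Module k X] [Module R X] where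
  π : ℤ → X →ₗ[k] X
  supp : Finset ℤ
  sum_eq : ∀ x, ∑ d ∈ supp, π d x = x
  idem : ∀ d x, π d (π d x) = π d x
  orth : ∀ d e, d ≠ e → ∀ x, π d (π e x) = 0
  smul_eq : ∀ i r, r ∈ 𝒜 i → ∀ d x, π (d + (i : ℤ)) (r • x) = r • π d x

variable {𝒜}
variable {X : Type w} [AddCommGroup X] [Module k X] [Module R X]

namespace Grd

variable (a : Grd 𝒜 X)

theorem smul_zero_deg {r : R} (hr : r ∈ 𝒜 0) (d : ℤ) (x : X) : a.π d (r • x) = r • a.π d x := by
  simpa using a.smul_eq 0 r hr d x

theorem eq_zero_of_not_mem {d : ℤ} (hd : d ∉ a.supp) : a.π d = 0 := by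
  ext x
  conv_lhs => rw [← a.sum_eq x]
  rw [map_sum]
  exact Finset.sum_eq_zero fun e he => a.orth d e (fun h => hd (h ▸ he)) x

theorem sum_eq_of_subset {S : Finset ℤ} (hS : a.supp ⊆ S) (x : X) : ∑ d ∈ S, a.π d x = x := by
  rw [← Finset.sum_subset hS fun d _ hd => by rw [a.eq_zero_of_not_mem hd]; rfl]
  exact a.sum_eq x

theorem ext_of_π {x y : X} (h : ∀ d, a.π d x = a.π d y) : x = y := by
  rw [← a.sum_eq x, ← a.sum_eq y]
  exact Finset.sum_congr rfl fun d _ => h d

theorem π_π (d e : ℤ) (x : X) : a.π d (a.π e x) = if d = e then a.π e x else 0 := by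
  split_ifs with h
  · subst h; exact a.idem d x
  · exact a.orth d e h x

theorem π_eq_self_of_lt {g d : ℤ} (hg : ∀ d < g, a.π d = 0) (hd : d < g) (x : X) : a.π d x = 0 := by
  rw [hg d hd]; rfl

/-- The same grading with all degrees raised by `g`. -/
def shift (g : ℤ) : Grd 𝒜 X where
  π d := a.π (d - g)
  supp := a.supp.map ⟨fun d => d + g, add_left_injective g⟩
  sum_eq x := by simp [a.sum_eq x]
  idem d x := a.idem _ x
  orth d e h x := a.orth _ _ (by omega) x
  smul_eq i r hr d x := by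
    show a.π (d + (i : ℤ) - g) (r • x) = _
    rw [show d + (i : ℤ) - g = d - g + i by ring]
    exact a.smul_eq i r hr _ x

/-- The grading induced on a submodule stable under the projections. -/
def restrict [IsScalarTower k R X] (S : Submodule R X) (hS : ∀ d, ∀ x ∈ S, a.π d x ∈ S) :
    Grd 𝒜 S where
  π d :=
    { toFun := fun x => ⟨a.π d x.1, hS d x.1 x.2⟩
      map_add' := fun x y => Subtype.ext ((a.π d).map_add x.1 y.1)
      map_smul' := fun c x => Subtype.ext ((a.π d).map_smul c x.1) }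
  supp := a.supp
  sum_eq x := Subtype.ext (by simp [a.sum_eq x.1])
  idem d x := Subtype.ext (a.idem d x.1)
  orth d e h x := Subtype.ext (a.orth d e h x.1)
  smul_eq i r hr d x := Subtype.ext (a.smul_eq i r hr d x.1)

@[simp] theorem restrict_π_coe [IsScalarTower k R X] (S : Submodule R X)
    (hS : ∀ d, ∀ x ∈ S, a.π d x ∈ S) (d : ℤ) (x : S) :
    ((a.restrict S hS).π d x : X) = a.π d x.1 := rfl

/-- The product of finitely many graded modules. -/
def pi {ι : Type} [Fintype ι] {Y : ι → Type w} [∀ s, AddCommGroup (Y s)] [∀ s, Module k (Y s)]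
    [∀ s, Module R (Y s)] (b : ∀ s, Grd 𝒜 (Y s)) : Grd 𝒜 (∀ s, Y s) where
  π d := LinearMap.pi fun s => ((b s).π d).comp (LinearMap.proj s)
  supp := Finset.univ.biUnion fun s => (b s).supp
  sum_eq x := by
    funext s
    simp only [Finset.sum_apply, LinearMap.pi_apply, LinearMap.comp_apply, LinearMap.proj_apply]
    exact (b s).sum_eq_of_subset
      (Finset.subset_biUnion_of_mem (fun s => (b s).supp) (Finset.mem_univ s)) (x s)
  idem d x := funext fun s => (b s).idem d (x s)
  orth d e h x := funext fun s => (b s).orth d e h (x s)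
  smul_eq i r hr d x := funext fun s => (b s).smul_eq i r hr d (x s)

variable {Y : Type w} [AddCommGroup Y] [Module k Y] [Module R Y] [IsScalarTower k R Y]
variable (b : Grd 𝒜 Y)

/-- The homomorphisms of degree `δ`. -/
def homDeg (δ : ℤ) : Submodule k (X →ₗ[R] Y) where
  carrier := {f | ∀ d x, b.π (d + δ) (f x) = f (a.π d x)}
  add_mem' {f g} hf hg d x := by simp [hf d x, hg d x]
  zero_mem' d x := by simp
  smul_mem' c f hf d x := by simp [hf d x]

theorem mem_homDeg {δ : ℤ} {f : X →ₗ[R] Y} :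
    f ∈ a.homDeg b δ ↔ ∀ d x, b.π (d + δ) (f x) = f (a.π d x) := Iff.rfl

variable [IsScalarTower k R X] [GradedAlgebra 𝒜]

omit [IsScalarTower k R Y] [IsScalarTower k R X] [GradedAlgebra 𝒜] in
theorem sum_component_π (f : X →ₗ[R] Y) (δ d : ℤ) (x : X) :
    ∑ e ∈ a.supp, b.π (e + δ) (f (a.π e (a.π d x))) = b.π (d + δ) (f (a.π d x)) := by
  rw [Finset.sum_eq_single d]
  · rw [a.idem]
  · intro e _ he; simp [a.orth e d he x]
  · intro hd; simp [a.eq_zero_of_not_mem hd]

/-- The component of degree `δ` of a homomorphism. -/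
def component (f : X →ₗ[R] Y) (δ : ℤ) : X →ₗ[R] Y where
  toFun x := ∑ e ∈ a.supp, b.π (e + δ) (f (a.π e x))
  map_add' x y := by simp [Finset.sum_add_distrib]
  map_smul' r x := by
    rw [RingHom.id_apply]
    induction r using DirectSum.Decomposition.inductionOn 𝒜 with
    | zero => simp
    | add r s hr hs => simp [add_smul, Finset.sum_add_distrib, hr, hs]
    | @homogeneous i r =>
      obtain ⟨r, hr⟩ := r
      have key : ∀ d, ∑ e ∈ a.supp, b.π (e + δ) (f (a.π e (r • a.π d x))) =
          r • b.π (d + δ) (f (a.π d x)) := fun d => by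
        rw [← a.smul_eq i r hr d x, a.sum_component_π b f δ, a.smul_eq i r hr d x, map_smul,
          show d + (i : ℤ) + δ = d + δ + i by ring, b.smul_eq i r hr]
      conv_lhs => rw [← a.sum_eq x]
      simp only [Finset.smul_sum, map_sum]
      rw [Finset.sum_comm]
      exact Finset.sum_congr rfl fun d _ => key d

omit [IsScalarTower k R Y] [IsScalarTower k R X] in
theorem component_apply (f : X →ₗ[R] Y) (δ : ℤ) (x : X) :
    a.component b f δ x = ∑ e ∈ a.supp, b.π (e + δ) (f (a.π e x)) := rfl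

omit [IsScalarTower k R Y] [IsScalarTower k R X] in
theorem component_π (f : X →ₗ[R] Y) (δ d : ℤ) (x : X) :
    a.component b f δ (a.π d x) = b.π (d + δ) (f (a.π d x)) :=
  a.sum_component_π b f δ d x

theorem component_mem (f : X →ₗ[R] Y) (δ : ℤ) : a.component b f δ ∈ a.homDeg b δ := by
  intro d x
  rw [a.component_π b]
  rw [a.component_apply b, map_sum, Finset.sum_eq_single d]
  · rw [b.idem]
  · intro e _ he; exact b.orth _ _ (by omega) _
  · intro hd; simp [a.eq_zero_of_not_mem hd]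

omit [IsScalarTower k R Y] [IsScalarTower k R X] [GradedAlgebra 𝒜] in
theorem id_comp_mem {Z : Type w} [AddCommGroup Z] [Module k Z] [Module R Z] [IsScalarTower k R Z]
    [IsScalarTower k R Y] (c : Grd 𝒜 Z) {δ ε : ℤ} {f : X →ₗ[R] Y} {g : Y →ₗ[R] Z}
    (hf : f ∈ a.homDeg b δ) (hg : g ∈ b.homDeg c ε) : g.comp f ∈ a.homDeg c (δ + ε) := by
  intro d x
  rw [LinearMap.comp_apply, LinearMap.comp_apply, ← hf d x, ← hg, add_assoc]

end Grd

section OfInternal

variable [IsScalarTower k R X]

open DirectSum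

/-- The projection to degree `d` of an internal grading by the natural numbers. -/
noncomputable def projInt (ℳ : ℕ → Submodule k X) (hI : DirectSum.IsInternal ℳ) (d : ℤ) :
    X →ₗ[k] X :=
  letI := hI.chooseDecomposition
  if 0 ≤ d then
    (ℳ d.toNat).subtype.comp ((DirectSum.component k ℕ (fun i => ℳ i) d.toNat).comp
      (DirectSum.decomposeLinearEquiv ℳ).toLinearMap)
  else 0

theorem projInt_apply_of_mem (ℳ : ℕ → Submodule k X) (hI : DirectSum.IsInternal ℳ) {j : ℕ}
    {x : X} (hx : x ∈ ℳ j) (d : ℤ) : projInt ℳ hI d x = if d = j then x else 0 := by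
  let := hI.chooseDecomposition
  simp only [projInt]
  by_cases hd : 0 ≤ d
  · rw [if_pos hd]
    show ((DirectSum.decompose ℳ x d.toNat : ℳ d.toNat) : X) = _
    split_ifs with h
    · subst h; exact DirectSum.decompose_of_mem_same ℳ hx
    · exact DirectSum.decompose_of_mem_ne ℳ hx (by omega)
  · rw [if_neg hd, if_neg (by omega)]; rfl

theorem projInt_mem (ℳ : ℕ → Submodule k X) (hI : DirectSum.IsInternal ℳ) (j : ℕ) (x : X) :
    projInt ℳ hI j x ∈ ℳ j := by
  let := hI.chooseDecomposition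
  simp only [projInt, Int.natCast_nonneg, if_true, Int.toNat_natCast]
  exact SetLike.coe_mem _

/-- An internal grading by the natural numbers bounded by `D`. -/
noncomputable def Grd.ofInternal (ℳ : ℕ → Submodule k X) (hI : DirectSum.IsInternal ℳ) (D : ℕ)
    (hD : ∀ d, D < d → ℳ d = ⊥)
    (hmul : ∀ i j, ∀ r ∈ 𝒜 i, ∀ x ∈ ℳ j, r • x ∈ ℳ (i + j)) : Grd 𝒜 X where
  π := projInt ℳ hI
  supp := (Finset.range (D + 1)).map Nat.castEmbedding
  sum_eq x := by
    let := hI.chooseDecomposition
    rw [Finset.sum_map]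
    induction x using DirectSum.Decomposition.inductionOn ℳ with
    | zero => simp
    | @homogeneous j x =>
      rcases lt_or_ge D j with hj | hj
      · have : (x : X) = 0 := by simpa [hD j hj] using x.2
        simp [this]
      · rw [Finset.sum_eq_single j]
        · simp [projInt_apply_of_mem ℳ hI x.2]
        · intro e _ he; simp [projInt_apply_of_mem ℳ hI x.2, he]
        · intro h; exact absurd (Finset.mem_range.2 (by omega)) h
    | add x y hx hy =>
      simp only [Nat.castEmbedding_apply] at hx hy ⊢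
      simp [Finset.sum_add_distrib, hx, hy]
  idem d x := by
    by_cases hd : 0 ≤ d
    · obtain ⟨j, rfl⟩ := Int.eq_ofNat_of_zero_le hd
      rw [projInt_apply_of_mem ℳ hI (projInt_mem ℳ hI j x), if_pos rfl]
    · simp [projInt, if_neg hd]
  orth d e h x := by
    by_cases he : 0 ≤ e
    · obtain ⟨j, rfl⟩ := Int.eq_ofNat_of_zero_le he
      rw [projInt_apply_of_mem ℳ hI (projInt_mem ℳ hI j x), if_neg h]
    · simp [projInt, if_neg he]
  smul_eq i r hr d x := by
    let := hI.chooseDecomposition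
    induction x using DirectSum.Decomposition.inductionOn ℳ with
    | zero => simp
    | @homogeneous j x =>
      rw [projInt_apply_of_mem ℳ hI (hmul i j r hr x x.2), projInt_apply_of_mem ℳ hI x.2]
      by_cases h : d = j
      · rw [if_pos h, if_pos (by push_cast; omega)]
      · rw [if_neg h, if_neg (by push_cast; omega), smul_zero]
    | add x y hx hy => simp [smul_add, hx, hy]

theorem Grd.ofInternal_π_of_lt (ℳ : ℕ → Submodule k X) (hI : DirectSum.IsInternal ℳ) (D : ℕ)
    (hD : ∀ d, D < d → ℳ d = ⊥)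
    (hmul : ∀ i j, ∀ r ∈ 𝒜 i, ∀ x ∈ ℳ j, r • x ∈ ℳ (i + j)) (d : ℤ)
    (hd : d < 0 ∨ (D : ℤ) < d) : (Grd.ofInternal ℳ hI D hD hmul).π d = 0 := by
  refine Grd.eq_zero_of_not_mem _ fun h => ?_
  simp only [Grd.ofInternal, Finset.mem_map, Finset.mem_range, Nat.castEmbedding_apply] at h
  obtain ⟨a, ha, rfl⟩ := h
  omega

end OfInternal

section Regular

variable [GradedAlgebra 𝒜]

/-- The grading of the algebra as a module over itself. -/
noncomputable def selfGrd (D : ℕ) (hD : ∀ d, D < d → 𝒜 d = ⊥) : Grd 𝒜 R :=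
  Grd.ofInternal 𝒜 (DirectSum.Decomposition.isInternal 𝒜) D hD
    fun _ _ _ hr _ hx => SetLike.mul_mem_graded hr hx

theorem selfGrd_mul_right (D : ℕ) (hD : ∀ d, D < d → 𝒜 d = ⊥) {e : R} (he : e ∈ 𝒜 0) (d : ℤ)
    (z : R) : (selfGrd D hD).π d (z * e) = (selfGrd D hD).π d z * e := by
  induction z using DirectSum.Decomposition.inductionOn 𝒜 with
  | zero => simp
  | @homogeneous j z =>
    simp only [selfGrd, Grd.ofInternal]
    rw [projInt_apply_of_mem _ _ z.2,
      projInt_apply_of_mem _ _ (show (z : R) * e ∈ 𝒜 j by simpa using SetLike.mul_mem_graded z.2 he)]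
    split_ifs <;> simp
  | add x y hx hy => simp [add_mul, hx, hy]

/-- The left ideal generated by `e`. -/
abbrev Re (e : R) : Submodule R R := Submodule.span R {e}

theorem mem_Re {e z : R} : z ∈ Re e ↔ ∃ r, r * e = z := by simp [Submodule.mem_span_singleton]

theorem mul_eq_of_mem_Re {e z : R} (he : IsIdempotentElem e) (hz : z ∈ Re e) : z * e = z := by
  obtain ⟨r, rfl⟩ := mem_Re.1 hz
  rw [mul_assoc, he.eq]

/-- The grading of `R e` with `e` placed in degree `g`. -/
noncomputable def reGrd (D : ℕ) (hD : ∀ d, D < d → 𝒜 d = ⊥) {e : R} (he : e ∈ 𝒜 0) (g : ℤ) :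
    Grd 𝒜 (Re e) :=
  ((selfGrd D hD).shift g).restrict (Re e) fun d x hx => by
    obtain ⟨r, rfl⟩ := mem_Re.1 hx
    exact mem_Re.2 ⟨_, (selfGrd_mul_right D hD he _ r).symm⟩

theorem reGrd_π_coe (D : ℕ) (hD : ∀ d, D < d → 𝒜 d = ⊥) {e : R} (he : e ∈ 𝒜 0) (g d : ℤ)
    (z : Re e) : ((reGrd D hD he g).π d z : R) = (selfGrd D hD).π (d - g) z.1 := rfl

theorem reGrd_π_eq_zero (D : ℕ) (hD : ∀ d, D < d → 𝒜 d = ⊥) {e : R} (he : e ∈ 𝒜 0) (g d : ℤ)
    (hd : d < g ∨ g + D < d) : (reGrd D hD he g).π d = 0 := by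
  ext z
  rw [reGrd_π_coe, selfGrd, Grd.ofInternal_π_of_lt _ _ _ _ _ _ (by omega)]
  rfl

end Regular

section Dimensions

variable [IsScalarTower k R X]

/-- The `k`-linear map `x ↦ e • x_d`. -/
def cmp (a : Grd 𝒜 X) (e : R) (d : ℤ) : X →ₗ[k] X :=
  (Algebra.lsmul k k X e).comp (a.π d)

/-- The dimension of `e • X_d`. -/
noncomputable def nv (a : Grd 𝒜 X) (e : R) (d : ℤ) : ℕ :=
  Module.finrank k (LinearMap.range (cmp a e d))

theorem cmp_apply (a : Grd 𝒜 X) (e : R) (d : ℤ) (x : X) : cmp a e d x = e • a.π d x := rfl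

theorem mem_range_cmp (a : Grd 𝒜 X) {e : R} (he0 : e ∈ 𝒜 0) (he : IsIdempotentElem e) (d : ℤ)
    (x : X) : x ∈ LinearMap.range (cmp a e d) ↔ cmp a e d x = x := by
  refine ⟨?_, fun h => ⟨x, h⟩⟩
  rintro ⟨y, rfl⟩
  simp only [cmp_apply, a.smul_zero_deg he0, a.idem, ← mul_smul, he.eq]

theorem nv_eq_zero (a : Grd 𝒜 X) (e : R) (d : ℤ) (h : a.π d = 0) : nv a e d = 0 := by
  rw [nv, show cmp a e d = 0 by rw [cmp, h, LinearMap.comp_zero], LinearMap.range_zero, finrank_bot]

variable {P K : Type w} [AddCommGroup P] [Module k P] [Module R P] [IsScalarTower k R P]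
  [AddCommGroup K] [Module k K] [Module R K] [IsScalarTower k R K]

theorem nv_of_exact [FiniteDimensional k P] [FiniteDimensional k K] (aK : Grd 𝒜 K) (aP : Grd 𝒜 P)
    (aX : Grd 𝒜 X) {ι : K →ₗ[R] P} {π : P →ₗ[R] X} (hι : Function.Injective ι)
    (hπ : Function.Surjective π) (hex : Function.Exact ι π) (hιd : ι ∈ aK.homDeg aP 0)
    (hπd : π ∈ aP.homDeg aX 0) {e : R} (he0 : e ∈ 𝒜 0) (he : IsIdempotentElem e) (d : ℤ) :
    nv aP e d = nv aX e d + nv aK e d := by
  have hι' : ∀ x, cmp aP e d (ι x) = ι (cmp aK e d x) := fun x => by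
    simpa [cmp_apply] using congrArg (e • ·) (by simpa using hιd d x :)
  have hπ' : ∀ x, cmp aX e d (π x) = π (cmp aP e d x) := fun x => by
    simpa [cmp_apply] using congrArg (e • ·) (by simpa using hπd d x :)
  let g : LinearMap.range (cmp aP e d) →ₗ[k] X :=
    (π.restrictScalars k).comp (Submodule.subtype _)
  have hg : LinearMap.range g = LinearMap.range (cmp aX e d) := by
    apply le_antisymm
    · rintro _ ⟨⟨_, y, rfl⟩, rfl⟩
      exact ⟨π y, hπ' y⟩
    · rintro _ ⟨y, rfl⟩
      obtain ⟨z, rfl⟩ := hπ y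
      exact ⟨⟨_, z, rfl⟩, (hπ' z).symm⟩
  let f : LinearMap.range (cmp aK e d) →ₗ[k] LinearMap.range (cmp aP e d) :=
    ((ι.restrictScalars k).comp (Submodule.subtype _)).codRestrict _ (by
      rintro ⟨_, y, rfl⟩; exact ⟨ι y, hι' y⟩)
  have hf : LinearMap.range f = LinearMap.ker g := by
    apply le_antisymm
    · rintro _ ⟨⟨y, hy⟩, rfl⟩
      exact hex.apply_apply_eq_zero y
    · rintro ⟨z, hz⟩ (h0 : π z = 0)
      obtain ⟨y, rfl⟩ := (hex z).1 h0
      have h1 := (mem_range_cmp aP he0 he d _).1 hz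
      rw [hι'] at h1
      exact ⟨⟨y, ⟨y, hι h1⟩⟩, rfl⟩
  have hfi : Function.Injective f := fun x y h => Subtype.ext (hι (congrArg Subtype.val h))
  have := LinearMap.finrank_range_add_finrank_ker g
  rw [hg, ← hf, LinearMap.finrank_range_of_inj hfi] at this
  exact this.symm

theorem nv_pi {ι : Type} [Fintype ι] {Y : ι → Type w} [∀ s, AddCommGroup (Y s)]
    [∀ s, Module k (Y s)] [∀ s, Module R (Y s)] [∀ s, IsScalarTower k R (Y s)]
    [∀ s, FiniteDimensional k (Y s)]
    (b : ∀ s, Grd 𝒜 (Y s)) (e : R) (d : ℤ) :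
    nv (Grd.pi b) e d = ∑ s, nv (b s) e d := by
  have h : LinearMap.range (cmp (Grd.pi b) e d) =
      Submodule.pi Set.univ fun s => LinearMap.range (cmp (b s) e d) := by
    ext x
    simp only [Submodule.mem_pi, Set.mem_univ, forall_true_left, LinearMap.mem_range]
    constructor
    · rintro ⟨y, rfl⟩ s; exact ⟨y s, rfl⟩
    · intro h
      choose y hy using h
      exact ⟨y, funext hy⟩
  rw [nv, h]
  let E : (Submodule.pi Set.univ fun s => LinearMap.range (cmp (b s) e d)) ≃ₗ[k]
      (∀ s, LinearMap.range (cmp (b s) e d)) :=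
    { toFun := fun x s => ⟨x.1 s, x.2 s (Set.mem_univ s)⟩
      invFun := fun y => ⟨fun s => (y s).1, fun s _ => (y s).2⟩
      map_add' := fun _ _ => rfl
      map_smul' := fun _ _ => rfl }
  rw [E.finrank_eq, Module.finrank_pi_fintype]
  rfl

end Dimensions

end Vale.Agent.P195.Graded
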