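import Vale.Agent.P195.Graded.Cover
import Vale.Agent.P195.Homol

/-!
The Euler characteristic of the graded resolution computes the graded dimensions of the
homomorphism spaces into modules without higher extensions.
-/

universe u v

open Matrix

namespace Vale.Agent.P195.Graded

variable {k : Type v} [Field k] {R : Type u} [Ring R] [Algebra k R]
variable {𝒜 : ℕ → Submodule k R} [GradedAlgebra 𝒜] (S : Setup 𝒜)

theorem finiteDimensional_hom {X Y : Type u} [AddCommGroup X] [Module k X] [Module R X]
    [IsScalarTower k R X] [AddCommGroup Y] [Module k Y] [Module R Y] [IsScalarTower k R Y]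
    [FiniteDimensional k X] [FiniteDimensional k Y] : FiniteDimensional k (X →ₗ[R] Y) :=
  FiniteDimensional.of_injective (V₂ := X →ₗ[k] Y)
    { toFun := fun f => f.restrictScalars k
      map_add' := fun _ _ => rfl
      map_smul' := fun _ _ => rfl }
    (LinearMap.restrictScalars_injective k)

variable {X : Type u} [AddCommGroup X] [Module k X] [Module R X] [IsScalarTower k R X]

/-- The graded dimension series of `e_l X`, in nonnegative degrees. -/
noncomputable def Setup.mser (a : Grd 𝒜 X) : Fin S.n → PowerSeries ℚ :=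
  fun l => PowerSeries.mk fun c => (nv a (S.e l) (c : ℤ) : ℚ)

/-- The graded Cartan matrix. -/
noncomputable def Setup.hser : Matrix (Fin S.n) (Fin S.n) (PowerSeries ℚ) :=
  Matrix.of fun i l => PowerSeries.mk fun c => (nv (S.prj l 0) (S.e i) (c : ℤ) : ℚ)

/-- The class of the resolution. -/
noncomputable def Setup.pser (a : Grd 𝒜 X) : Fin S.n → PowerSeries ℚ := S.hser⁻¹ *ᵥ S.mser a

omit [IsScalarTower k R X] in
theorem Setup.nv_prj (i l : Fin S.n) (g d : ℤ) :
    nv (S.prj l g) (S.e i) d = nv (S.prj l 0) (S.e i) (d - g) := by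
  have h : cmp (S.prj l g) (S.e i) d = cmp (S.prj l 0) (S.e i) (d - g) := by
    refine LinearMap.ext fun z => Subtype.ext ?_
    simp only [cmp_apply, SetLike.val_smul, reGrd_π_coe, sub_zero]
  rw [nv, nv, h]

omit [IsScalarTower k R X] in
theorem Setup.det_cartan_zero [Module.Finite k R] :
    (Matrix.of fun i l => (nv (S.prj l 0) (S.e i) 0 : ℚ)).det ≠ 0 := by
  have hoff : ∀ i l, i ≠ l → nv (S.prj l 0) (S.e i) 0 = 0 := by
    intro i l h
    have h0 : cmp (S.prj l 0) (S.e i) 0 = 0 := by
      refine LinearMap.ext fun z => Subtype.ext ?_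
      rw [cmp_apply, LinearMap.zero_apply, SetLike.val_smul, reGrd_π_coe, sub_zero,
        ← mul_eq_of_mem_Re (S.he l) z.2, selfGrd_mul_right _ _ (S.he0 l), smul_eq_mul, ← mul_assoc]
      refine S.orth i l h _ ?_
      exact projInt_mem 𝒜 _ 0 z.1
    rw [nv, h0, LinearMap.range_zero, finrank_bot]
  have hdiag : (Matrix.of fun i l => (nv (S.prj l 0) (S.e i) 0 : ℚ)) =
      Matrix.diagonal fun i => (nv (S.prj i 0) (S.e i) 0 : ℚ) := by
    ext i l
    rcases eq_or_ne i l with rfl | h
    · simp
    · simp [hoff i l h, Matrix.diagonal_apply_ne _ h]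
  rw [hdiag, Matrix.det_diagonal]
  refine Finset.prod_ne_zero_iff.2 fun i _ => Nat.cast_ne_zero.2 ?_
  intro h0
  have hbot := Submodule.finrank_eq_zero.1 h0
  have hmem : S.gen i ∈ LinearMap.range (cmp (S.prj i 0) (S.e i) 0) :=
    ⟨S.gen i, by rw [cmp_apply, S.prj_π_gen]; exact Subtype.ext (S.he i)⟩
  rw [hbot, Submodule.mem_bot] at hmem
  exact S.hne i (congrArg Subtype.val hmem)

omit [IsScalarTower k R X] in
theorem Setup.isUnit_det_hser [Module.Finite k R] : IsUnit S.hser.det := by
  rw [PowerSeries.isUnit_iff_constantCoeff, isUnit_iff_ne_zero, RingHom.map_det]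
  convert S.det_cartan_zero using 3
  ext i l
  simp [Setup.hser]

theorem Setup.hser_mulVec_pser [Module.Finite k R] (a : Grd 𝒜 X) :
    S.hser *ᵥ S.pser a = S.mser a := by
  rw [Setup.pser, Matrix.mulVec_mulVec, Matrix.mul_nonsing_inv _ S.isUnit_det_hser,
    Matrix.one_mulVec]

theorem Setup.coeff_pser_eq_zero (a : Grd 𝒜 X) (g : ℕ) (hlow : ∀ d < (g : ℤ), a.π d = 0)
    (l : Fin S.n) {c : ℕ} (hc : c < g) : PowerSeries.coeff c (S.pser a l) = 0 := by
  simp only [Setup.pser, Matrix.mulVec, dotProduct, map_sum, PowerSeries.coeff_mul]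
  refine Finset.sum_eq_zero fun j _ => Finset.sum_eq_zero fun x hx => ?_
  have : x.1 + x.2 = c := Finset.HasAntidiagonal.mem_antidiagonal.1 hx
  simp [Setup.mser, nv_eq_zero a _ _ (hlow (x.2 : ℤ) (by omega))]

/-- A cover by shifted indecomposable projectives with kernel in higher degrees. -/
theorem Setup.exists_cover [FiniteDimensional k X] (a : Grd 𝒜 X) (g : ℕ)
    (hlow : ∀ d < (g : ℤ), a.π d = 0) :
    ∃ (ι : Type) (_ : Fintype ι) (_ : DecidableEq ι) (c : ι → Fin S.n) (dg : ι → ℕ) (x : ι → X),
      (∀ s, g ≤ dg s) ∧ (∀ s, a.π (dg s : ℤ) (x s) = x s) ∧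
      Function.Surjective (S.freeMap c x) ∧
      ∀ z, S.freeMap c x z = 0 → (S.freeGrd c fun s => (dg s : ℤ)).π (g : ℤ) z = 0 := by
  classical
  let T : Finset ℕ := (a.supp.image Int.toNat).filter fun t => g ≤ t
  choose r c x hx hex hspan hker using fun t : T => S.cover X a ((t : ℕ) : ℤ)
  let ι := Σ t : T, Fin (r t)
  let c' : ι → Fin S.n := fun s => c s.1 s.2
  let dg : ι → ℕ := fun s => s.1.1
  let x' : ι → X := fun s => x s.1 s.2
  refine ⟨ι, inferInstance, inferInstance, c', dg, x', fun s => (Finset.mem_filter.1 s.1.2).2,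
    fun s => hx s.1 s.2, ?_, ?_⟩
  · rw [← LinearMap.range_eq_top, Submodule.eq_top_iff']
    intro w
    rw [← a.sum_eq w]
    refine Submodule.sum_mem _ fun d hd => ?_
    rcases lt_or_ge d (g : ℤ) with hlt | hge
    · rw [hlow d hlt]; exact zero_mem _
    · obtain ⟨t, rfl⟩ := Int.eq_ofNat_of_zero_le (show 0 ≤ d by omega)
      have ht : t ∈ T := Finset.mem_filter.2
        ⟨Finset.mem_image.2 ⟨_, hd, Int.toNat_natCast t⟩, by omega⟩
      obtain ⟨y, -, hy⟩ := hspan ⟨t, ht⟩ _ (a.idem t w)
      rw [← hy]
      refine Submodule.sum_mem _ fun j _ => Submodule.smul_mem _ _ ?_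
      refine ⟨Pi.single ⟨⟨t, ht⟩, j⟩ (S.gen _), ?_⟩
      rw [S.freeMap_apply, Finset.sum_eq_single ⟨⟨t, ht⟩, j⟩]
      · simp only [Pi.single_eq_same]; exact hex _ j
      · intro s _ hs; simp [Pi.single_eq_of_ne hs]
      · simp
  · intro z hz
    set P := S.freeGrd c' fun s => (dg s : ℤ)
    have hw : S.freeMap c' x' (P.π g z) = 0 := by
      have := S.freeMap_mem c' (fun s => (dg s : ℤ)) a 0 x'
        (fun s => by rw [add_zero]; exact hx s.1 s.2) g z
      rw [hz, map_zero] at this
      exact this.symm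
    have hhigh : ∀ s : ι, dg s ≠ g → P.π g z s = 0 := by
      intro s hs
      show (S.prj (c' s) (dg s : ℤ)).π g (z s) = 0
      have : g ≤ dg s := (Finset.mem_filter.1 s.1.2).2
      rw [reGrd_π_eq_zero _ _ _ _ _ (Or.inl (by omega))]
      rfl
    funext s
    by_cases hs : dg s = g
    · obtain ⟨t, j⟩ := s
      rw [S.freeMap_apply, Fintype.sum_sigma, Finset.sum_eq_single t] at hw
      · have hdeg : ∀ i, ((P.π g z ⟨t, i⟩ : Re _) : R) ∈ 𝒜 0 := fun i => by
          show ((S.prj (c t i) ((t : ℕ) : ℤ)).π g (z ⟨t, i⟩) : R) ∈ 𝒜 0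
          rw [reGrd_π_coe, show ((g : ℕ) : ℤ) - ((t : ℕ) : ℤ) = 0 by
            simp only [dg] at hs; omega]
          exact projInt_mem 𝒜 _ 0 _
        have := hker t (fun i => (P.π g z ⟨t, i⟩).1) hdeg hw j
        rw [mul_eq_of_mem_Re (S.he _) (SetLike.coe_mem _)] at this
        exact Subtype.ext this
      · intro t' _ ht'
        refine Finset.sum_eq_zero fun i _ => ?_
        rw [hhigh ⟨t', i⟩ fun h => ht' (Subtype.ext (h.trans hs.symm))]
        simp
      · simp
    · exact hhigh s hs

theorem Setup.mser_free [Module.Finite k R] {ι : Type} [Fintype ι] [DecidableEq ι]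
    (c : ι → Fin S.n) (dg : ι → ℕ) :
    S.pser (S.freeGrd c fun s => (dg s : ℤ)) =
      fun l => ∑ s, if c s = l then PowerSeries.X ^ dg s else 0 := by
  set v : Fin S.n → PowerSeries ℚ := fun l => ∑ s, if c s = l then PowerSeries.X ^ dg s else 0
  have hv : S.hser *ᵥ v = S.mser (S.freeGrd c fun s => (dg s : ℤ)) := by
    funext i
    ext d
    simp only [Matrix.mulVec, dotProduct, v, Finset.mul_sum, mul_ite, mul_zero]
    rw [Finset.sum_comm]
    simp only [Finset.sum_ite_eq, Finset.mem_univ, if_true, map_sum,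
      PowerSeries.coeff_mul_X_pow', Setup.hser, Matrix.of_apply, PowerSeries.coeff_mk, Setup.mser]
    rw [nv_pi, Nat.cast_sum]
    refine Finset.sum_congr rfl fun s _ => ?_
    rw [S.nv_prj i (c s) (dg s : ℤ)]
    split_ifs with h
    · rw [Nat.cast_sub h]
    · rw [nv_eq_zero _ _ _ (reGrd_π_eq_zero _ _ _ _ _ (Or.inl (by omega))), Nat.cast_zero]
  rw [Setup.pser, ← hv, Matrix.mulVec_mulVec, Matrix.nonsing_inv_mul _ S.isUnit_det_hser,
    Matrix.one_mulVec]

/-- Dimensions of homomorphisms from the Euler characteristic of the resolution. -/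
theorem Setup.count [Module.Finite k R] {N : Type u} [AddCommGroup N] [Module k N] [Module R N]
    [IsScalarTower k R N] [FiniteDimensional k N] (aN : Grd 𝒜 N) (δ : ℤ) (B : ℕ)
    (hB : ∀ d : ℤ, (B : ℤ) ≤ d → aN.π (d + δ) = 0) :
    ∀ (j g : ℕ) (X : Type u) [AddCommGroup X] [Module k X] [Module R X] [IsScalarTower k R X]
      [FiniteDimensional k X] (a : Grd 𝒜 X), B ≤ g + j → (∀ d < (g : ℤ), a.π d = 0) →
      (∀ i, 1 ≤ i → i ≤ j → EV R X N i) →
      (Module.finrank k (a.homDeg aN δ) : ℚ) = ∑ l, ∑ c ∈ Finset.range B,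
        PowerSeries.coeff c (S.pser a l) * (nv aN (S.e l) ((c : ℤ) + δ) : ℚ) := by
  intro j
  induction j with
  | zero =>
    intro g X _ _ _ _ _ a hBg hlow _
    have hbot : a.homDeg aN δ = ⊥ := by
      refine (Submodule.eq_bot_iff _).2 fun f hf => LinearMap.ext fun x => ?_
      rw [← a.sum_eq x, map_sum]
      refine Finset.sum_eq_zero fun d _ => ?_
      rcases lt_or_ge d (g : ℤ) with hd | hd
      · rw [hlow d hd]; exact map_zero f
      · rw [← hf d x, hB d (by omega)]; rfl
    rw [hbot, finrank_bot, Nat.cast_zero, Eq.comm]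
    refine Finset.sum_eq_zero fun l _ => Finset.sum_eq_zero fun c hc => ?_
    have : c < g := by have := Finset.mem_range.1 hc; omega
    rw [S.coeff_pser_eq_zero a g hlow l this, zero_mul]
  | succ j ih =>
    intro g X _ _ _ _ _ a hBg hlow hEV
    obtain ⟨ι, _, _, c, dg, x, hdg, hx, hsurj, hker⟩ := S.exists_cover a g hlow
    set P := S.freeGrd c fun s => (dg s : ℤ) with hP
    let π := S.freeMap c x
    have hπ : π ∈ P.homDeg a 0 := S.freeMap_mem c _ a 0 x fun s => by rw [add_zero]; exact hx s
    let K := LinearMap.ker π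
    have hst : ∀ d, ∀ z ∈ K, P.π d z ∈ K := fun d z (hz : π z = 0) => by
      show π _ = 0
      rw [← hπ d z, hz, map_zero]
    let aK : Grd 𝒜 K := P.restrict K hst
    have : FiniteDimensional k (∀ s, Re (S.e (c s))) := inferInstance
    have : FiniteDimensional k K :=
      Module.Finite.of_injective (K.subtype.restrictScalars k) K.injective_subtype
    have hι : K.subtype ∈ aK.homDeg P 0 := fun d z => by rw [add_zero]; rfl
    have hexact : Function.Exact K.subtype π := LinearMap.exact_subtype_ker_map π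
    have hlowK : ∀ d < ((g + 1 : ℕ) : ℤ), aK.π d = 0 := by
      intro d hd
      refine LinearMap.ext fun z => Subtype.ext ?_
      show P.π d z.1 = 0
      rcases eq_or_lt_of_le (show d ≤ (g : ℤ) by omega) with rfl | h
      · exact hker z.1 z.2
      · funext s
        show (S.prj (c s) (dg s : ℤ)).π d (z.1 s) = 0
        rw [reGrd_π_eq_zero _ _ _ _ _ (Or.inl (by have := hdg s; omega))]
        rfl
    have hproj : Module.Projective R (∀ s, Re (S.e (c s))) := by
      have := fun s => S.projective_Re (c s)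
      exact Module.Projective.of_equiv (DFinsupp.linearEquivFunOnFintype (R := R))
    have hEVK : ∀ i, 1 ≤ i → i ≤ j → EV R K N i := by
      intro i hi hij
      obtain ⟨i, rfl⟩ := Nat.exists_eq_add_of_le' hi
      exact ev_shift K.injective_subtype hsurj hexact i (hEV (i + 2) (by omega) (by omega))
    have hIH := ih (g + 1) K aK (by omega) hlowK hEVK
    -- the sequence of homomorphisms
    have hext := ev_extend (Y := N) K.injective_subtype hsurj hexact (hEV 1 le_rfl (by omega))
    let res : P.homDeg aN δ →ₗ[k] aK.homDeg aN δ :=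
      { toFun := fun f => ⟨f.1.comp K.subtype, by
          simpa using aK.id_comp_mem P aN hι f.2⟩
        map_add' := fun _ _ => rfl
        map_smul' := fun _ _ => rfl }
    have hres : Function.Surjective res := by
      intro f
      obtain ⟨F, hF⟩ := hext f.1
      refine ⟨⟨_, P.component_mem aN F δ⟩, Subtype.ext (LinearMap.ext fun z => ?_)⟩
      refine (congrArg (fun w : K => P.component aN F δ (w : ∀ s, Re (S.e (c s))))
        (aK.sum_eq z)).symm.trans ?_
      conv_rhs => rw [← aK.sum_eq z]
      simp only [Submodule.coe_sum, map_sum]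
      refine Finset.sum_congr rfl fun d _ => ?_
      show P.component aN F δ (P.π d z.1) = _
      rw [P.component_π aN]
      have h1 : F (P.π d z.1) = f.1 (aK.π d z) := LinearMap.congr_fun hF (aK.π d z)
      rw [h1, ← f.2, aN.idem]
    let pre : a.homDeg aN δ →ₗ[k] P.homDeg aN δ :=
      { toFun := fun f => ⟨f.1.comp π, by simpa using P.id_comp_mem a aN hπ f.2⟩
        map_add' := fun _ _ => rfl
        map_smul' := fun _ _ => rfl }
    have hpre : Function.Injective pre := fun f f' h => by
      refine Subtype.ext (LinearMap.ext fun w => ?_)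
      obtain ⟨z, rfl⟩ := hsurj w
      exact LinearMap.congr_fun (congrArg Subtype.val h) z
    have hker' : LinearMap.range pre = LinearMap.ker res := by
      apply le_antisymm
      · rintro _ ⟨f, rfl⟩
        refine Subtype.ext (LinearMap.ext fun z => ?_)
        show f.1 (π z.1) = 0
        rw [show π z.1 = 0 from z.2, map_zero]
      · intro f hf
        have hle : LinearMap.ker π ≤ LinearMap.ker f.1 := fun z hz =>
          LinearMap.congr_fun (congrArg Subtype.val hf) ⟨z, hz⟩
        let h := ((LinearMap.ker π).liftQ f.1 hle).comp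
          (LinearMap.quotKerEquivOfSurjective π hsurj).symm.toLinearMap
        have hcomp : ∀ z, h (π z) = f.1 z := fun z => by
          simp only [h, LinearMap.comp_apply, LinearEquiv.coe_coe]
          rw [show (LinearMap.quotKerEquivOfSurjective π hsurj).symm (π z) = Submodule.Quotient.mk z
            from (LinearEquiv.symm_apply_eq _).2 rfl, Submodule.liftQ_apply]
        refine ⟨⟨h, fun d w => ?_⟩, Subtype.ext (LinearMap.ext hcomp)⟩
        obtain ⟨z, rfl⟩ := hsurj w
        rw [hcomp, f.2 d z, show a.π d (π z) = π (P.π d z) by simpa using hπ d z, hcomp]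
    have := @finiteDimensional_hom k _ R _ _ (∀ s, Re (S.e (c s))) N
    have hrn := LinearMap.finrank_range_add_finrank_ker res
    rw [LinearMap.range_eq_top.2 hres, finrank_top, ← hker',
      LinearMap.finrank_range_of_inj hpre, hP, S.finrank_homDeg_free] at hrn
    -- the classes add
    have hm : S.mser P = S.mser a + S.mser aK := by
      funext l
      ext d
      simp only [Setup.mser, Pi.add_apply, map_add, PowerSeries.coeff_mk]
      exact_mod_cast nv_of_exact aK P a K.injective_subtype hsurj hexact hι hπ (S.he0 l) (S.he l) d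
    have hp : S.pser P = S.pser a + S.pser aK := by
      simp only [Setup.pser, hm, Matrix.mulVec_add]
    have hX : (Module.finrank k (a.homDeg aN δ) : ℚ) =
        ∑ s, (nv aN (S.e (c s)) ((dg s : ℤ) + δ) : ℚ) -
          (Module.finrank k (aK.homDeg aN δ) : ℚ) := by
      rw [← Nat.cast_sum, ← hrn, Nat.cast_add]; ring
    have hpX : ∀ l, S.pser a l = S.pser P l - S.pser aK l := fun l => by
      rw [hp]; simp
    rw [hX, hIH]
    simp only [hpX, map_sub, sub_mul, Finset.sum_sub_distrib]
    congr 1
    simp only [hP, S.mser_free, map_sum, Finset.sum_mul]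
    conv_rhs => rw [Finset.sum_congr rfl fun l _ => Finset.sum_comm, Finset.sum_comm]
    refine Finset.sum_congr rfl fun s _ => ?_
    rw [Finset.sum_eq_single (c s)]
    · simp only [if_true, PowerSeries.coeff_X_pow, ite_mul, one_mul, zero_mul,
        Finset.sum_ite_eq', Finset.mem_range]
      split_ifs with h
      · rfl
      · rw [nv_eq_zero _ _ _ (hB _ (by omega)), Nat.cast_zero]
    · intro l _ hl; simp [Ne.symm hl]
    · simp

end Vale.Agent.P195.Graded
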