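import Mathlib

/-!
A semisimple ring has finitely many pairwise orthogonal idempotents whose left ideals represent the
simple modules, and every finitely generated module is a sum of copies of these.
-/

universe u v

namespace Vale.Agent.P195.Graded

variable {A : Type u} [Ring A]

/-- Two idempotents generating non-isomorphic simple left ideals are orthogonal. -/
theorem mul_mul_eq_zero_of_not_iso {e f : A}
    [IsSimpleModule A (Ideal.span {e})] [IsSimpleModule A (Ideal.span {f})]
    (h : IsEmpty (Ideal.span {e} ≃ₗ[A] Ideal.span {f})) (a : A) : e * a * f = 0 := by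
  have hmem : ∀ z : A, z * (a * f) ∈ Ideal.span {f} := fun z =>
    Ideal.mem_span_singleton'.2 ⟨z * a, mul_assoc _ _ _⟩
  let φ : Ideal.span {e} →ₗ[A] Ideal.span {f} :=
    { toFun := fun z => ⟨z.1 * (a * f), hmem z.1⟩
      map_add' := fun z w => Subtype.ext (add_mul z.1 w.1 _)
      map_smul' := fun r z => Subtype.ext (mul_assoc r z.1 _) }
  by_contra hne
  have hφ : φ ≠ 0 := fun h0 => hne (by
    have := congrArg Subtype.val
      (LinearMap.congr_fun h0 ⟨e, Ideal.mem_span_singleton_self e⟩)
    simpa [φ, mul_assoc] using this)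
  exact h.elim (LinearEquiv.ofBijective φ (LinearMap.bijective_of_ne_zero hφ))

variable (A) in
/-- Representatives of the simple modules by idempotents. -/
theorem exists_simples [IsSemisimpleRing A] :
    ∃ (n : ℕ) (e : Fin n → A), (∀ l, IsIdempotentElem (e l)) ∧ (∀ l, e l ≠ 0) ∧
      (∀ i j, i ≠ j → ∀ a, e i * a * e j = 0) ∧
      ∀ (V : Type v) [AddCommGroup V] [Module A V] [Module.Finite A V],
        ∃ (r : ℕ) (c : Fin r → Fin n) (x : Fin r → V),
          (∀ s, e (c s) • x s = x s) ∧ (∀ w, ∃ y : Fin r → A, ∑ s, y s • x s = w) ∧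
          (∀ y : Fin r → A, ∑ s, y s • x s = 0 → ∀ s, y s * e (c s) = 0) := by
  classical
  obtain ⟨N, S, E, hS⟩ := IsSemisimpleModule.exists_linearEquiv_fin_dfinsupp A A
  let P : Fin N → Prop := fun l => ∀ i < l, IsEmpty (S i ≃ₗ[A] S l)
  let eq := (Fintype.equivFin {l // P l}).symm
  let rep : Fin (Fintype.card {l // P l}) → Fin N := fun i => (eq i).1
  choose g hg hgS using fun l => IsSemisimpleRing.ideal_eq_span_idempotent (S l)
  have hsimple : ∀ l, IsSimpleModule A (Ideal.span {g l}) := fun l => by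
    rw [← hgS l]; exact hS l
  -- every simple module is isomorphic to one of the representatives
  have hrep : ∀ (V : Type v) [AddCommGroup V] [Module A V], IsSimpleModule A V →
      ∃ i, Nonempty (Ideal.span {g (rep i)} ≃ₗ[A] V) := by
    intro V _ _ hV
    have hnt : Nontrivial V := IsSimpleModule.nontrivial A V
    obtain ⟨v, hv⟩ := exists_ne (0 : V)
    let f : (Π₀ i, S i) →ₗ[A] V :=
      (LinearMap.toSpanSingleton A V v).comp E.symm.toLinearMap
    have hf : f ≠ 0 := fun h => hv (by simpa [f] using LinearMap.congr_fun h (E 1))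
    obtain ⟨i, hi⟩ : ∃ i, f.comp (DFinsupp.lsingle i) ≠ 0 := by
      by_contra hcon
      push Not at hcon
      exact hf (DFinsupp.lhom_ext' fun i => by rw [hcon i, LinearMap.zero_comp])
    have := hS i
    let φ : S i ≃ₗ[A] V := LinearEquiv.ofBijective _ (LinearMap.bijective_of_ne_zero hi)
    obtain ⟨l, ⟨ψ⟩, hmin⟩ := wellFounded_lt.has_min {l : Fin N | Nonempty (S l ≃ₗ[A] V)}
      ⟨i, ⟨φ⟩⟩
    have hl : P l := fun j hj => ⟨fun χ => hmin j ⟨χ.trans ψ⟩ hj⟩
    refine ⟨eq.symm ⟨l, hl⟩, ⟨LinearEquiv.trans (LinearEquiv.ofEq _ _ ?_) ψ⟩⟩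
    simp [rep, hgS l]
  refine ⟨_, fun i => g (rep i), fun i => hg _, fun i h0 => ?_, fun i j hij => ?_, ?_⟩
  · have := (hsimple (rep i))
    have := IsSimpleModule.nontrivial A (Ideal.span {g (rep i)})
    rw [Submodule.nontrivial_iff_ne_bot] at this
    exact this (Ideal.span_singleton_eq_bot.2 h0)
  · have := hsimple (rep i)
    have := hsimple (rep j)
    refine mul_mul_eq_zero_of_not_iso ⟨fun χ => ?_⟩
    have hne : rep i ≠ rep j := fun h => hij (eq.injective (Subtype.ext h))
    have χ' : S (rep i) ≃ₗ[A] S (rep j) :=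
      (LinearEquiv.ofEq _ _ (hgS _)).trans (χ.trans (LinearEquiv.ofEq _ _ (hgS _).symm))
    rcases lt_or_gt_of_ne hne with h | h
    · exact ((eq j).2 _ h).elim χ'
    · exact ((eq i).2 _ h).elim χ'.symm
  · intro V _ _ _
    obtain ⟨r, T, F, hT⟩ := IsSemisimpleModule.exists_linearEquiv_fin_dfinsupp A V
    choose c hc using fun s => hrep (T s) (hT s)
    let ψ := fun s => (hc s).some
    let ε : ∀ s, Ideal.span {g (rep (c s))} := fun s => ⟨_, Ideal.mem_span_singleton_self _⟩
    let F' : V ≃ₗ[A] (∀ s, T s) := F.trans DFinsupp.linearEquivFunOnFintype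
    let x : Fin r → V := fun s => F'.symm (Pi.single s (ψ s (ε s)))
    have hF : ∀ y : Fin r → A, F' (∑ s, y s • x s) = fun s => ψ s (y s • ε s) := by
      intro y
      funext t
      simp only [x, map_sum, map_smul, LinearEquiv.apply_symm_apply, Finset.sum_apply, Pi.smul_apply]
      rw [Finset.sum_eq_single t]
      · simp
      · intro b _ hb; simp [Pi.single_eq_of_ne' hb]
      · simp
    refine ⟨r, c, x, fun s => ?_, fun w => ?_, fun y hy s => ?_⟩
    · show g (rep (c s)) • x s = x s
      have h1 : g (rep (c s)) • ε s = ε s := Subtype.ext (hg _)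
      simp only [x]
      rw [← map_smul, ← Pi.single_smul, ← map_smul, h1]
    · choose y hy using fun s => Ideal.mem_span_singleton'.1 ((ψ s).symm (F' w s)).2
      refine ⟨y, F'.injective ?_⟩
      rw [hF]
      funext s
      rw [show y s • ε s = (ψ s).symm (F' w s) from Subtype.ext (hy s), LinearEquiv.apply_symm_apply]
    · have h := congrFun ((hF y).symm.trans (by rw [hy, map_zero])) s
      simpa [ε] using congrArg Subtype.val ((map_eq_zero_iff _ (ψ s).injective).1 h)

end Vale.Agent.P195.Graded
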