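import Vale.Agent.P195.Graded.Basic
import Vale.Agent.P195.Graded.Simples

/-!
Projective covers of graded modules by sums of shifted indecomposable projectives, and their
homomorphisms.
-/

universe u v

namespace Vale.Agent.P195.Graded

variable {k : Type v} [Field k] {R : Type u} [Ring R] [Algebra k R]
variable (𝒜 : ℕ → Submodule k R) [GradedAlgebra 𝒜]

/-- A positively graded algebra, bounded by `D`, with representatives of the simple modules of its
degree zero part. -/
structure Setup where
  D : ℕ
  hD : ∀ d, D < d → 𝒜 d = ⊥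
  n : ℕ
  e : Fin n → R
  he0 : ∀ l, e l ∈ 𝒜 0
  he : ∀ l, IsIdempotentElem (e l)
  hne : ∀ l, e l ≠ 0
  hss : IsSemisimpleRing (SetLike.GradeZero.subalgebra 𝒜)
  orth : ∀ i j, i ≠ j → ∀ a ∈ 𝒜 0, e i * a * e j = 0
  cover : ∀ (X : Type u) [AddCommGroup X] [Module k X] [Module R X] [IsScalarTower k R X]
    [FiniteDimensional k X] (a : Grd 𝒜 X) (g : ℤ),
    ∃ (r : ℕ) (c : Fin r → Fin n) (x : Fin r → X),
      (∀ s, a.π g (x s) = x s) ∧ (∀ s, e (c s) • x s = x s) ∧
      (∀ w, a.π g w = w → ∃ y : Fin r → R, (∀ s, y s ∈ 𝒜 0) ∧ ∑ s, y s • x s = w) ∧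
      (∀ y : Fin r → R, (∀ s, y s ∈ 𝒜 0) → ∑ s, y s • x s = 0 → ∀ s, y s * e (c s) = 0)

/-- Setups exist when the degree zero part is semisimple. -/
theorem exists_setup [Module.Finite k R] (D : ℕ) (hD : ∀ d, D < d → 𝒜 d = ⊥)
    (hss : IsSemisimpleRing (𝒜 0)) : ∃ S : Setup 𝒜, S.D = D ∧ S.n ≤ Module.finrank k R := by
  let A := SetLike.GradeZero.subalgebra 𝒜
  let E : (𝒜 0) ≃+* A :=
    { toFun := fun a => ⟨a.1, a.2⟩
      invFun := fun a => ⟨a.1, a.2⟩
      map_mul' := fun _ _ => rfl
      map_add' := fun _ _ => rfl }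
  have : IsSemisimpleRing A := E.isSemisimpleRing
  obtain ⟨n, e, he, hne, horth, hV⟩ := exists_simples.{u, u} A
  refine ⟨⟨D, hD, n, fun l => (e l).1, fun l => (e l).2, fun l => congrArg Subtype.val (he l),
    fun l h => hne l (Subtype.ext h), this,
    fun i j h a ha => congrArg Subtype.val (horth i j h ⟨a, ha⟩), ?_⟩, rfl, ?_⟩
  · intro X _ _ _ _ _ a g
    let G : Submodule A X :=
      { carrier := {x | a.π g x = x}
        add_mem' := fun {x y} (hx : a.π g x = x) (hy : a.π g y = y) =>
          show a.π g (x + y) = x + y by rw [map_add, hx, hy]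
        zero_mem' := map_zero _
        smul_mem' := fun r x (hx : a.π g x = x) => by
          show a.π g ((r : R) • x) = (r : R) • x
          rw [a.smul_zero_deg r.2, hx] }
    have : Module.Finite k G :=
      Module.Finite.of_injective (G.subtype.restrictScalars k) Subtype.val_injective
    have : Module.Finite A G := Module.Finite.of_restrictScalars_finite k A G
    obtain ⟨r, c, x, hx, hsurj, hker⟩ := hV G
    refine ⟨r, c, fun s => (x s).1, fun s => (x s).2, fun s => congrArg Subtype.val (hx s),
      fun w hw => ?_, fun y hy h s => ?_⟩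
    · obtain ⟨y, hy⟩ := hsurj ⟨w, hw⟩
      refine ⟨fun s => (y s).1, fun s => (y s).2, ?_⟩
      simpa [Subalgebra.smul_def] using congrArg Subtype.val hy
    · exact congrArg Subtype.val (hker (fun s => ⟨y s, hy s⟩)
        (Subtype.ext (by simpa [Subalgebra.smul_def] using h)) s)
  · have hli : LinearIndependent k fun l => (e l).1 := by
      rw [Fintype.linearIndependent_iff]
      intro c hc i
      have h := congrArg (fun z => (e i).1 * z * (e i).1) hc
      simp only [mul_zero, zero_mul, Finset.mul_sum, Finset.sum_mul] at h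
      rw [Finset.sum_eq_single i (fun j _ hj => ?_) (by simp)] at h
      · simp only [Algebra.mul_smul_comm, Algebra.smul_mul_assoc] at h
        simp only [show (e i).1 * (e i).1 = (e i).1 from congrArg Subtype.val (he i),
          smul_eq_zero] at h
        exact h.resolve_right fun h0 => hne i (Subtype.ext h0)
      · simp only [Algebra.mul_smul_comm, Algebra.smul_mul_assoc]
        have : (e i).1 * (e j).1 = 0 := by
          have := congrArg Subtype.val (horth i j (Ne.symm hj) (e j))
          simpa [mul_assoc, show (e j).1 * (e j).1 = (e j).1 from congrArg Subtype.val (he j)]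
            using this
        rw [this, zero_mul, smul_zero]
    simpa using hli.fintype_card_le_finrank

variable {𝒜} (S : Setup 𝒜)

/-- The graded projective module `R e_l` with `e_l` in degree `g`. -/
noncomputable abbrev Setup.prj (l : Fin S.n) (g : ℤ) : Grd 𝒜 (Re (S.e l)) :=
  reGrd S.D S.hD (S.he0 l) g

/-- The generator of `R e_l`. -/
def Setup.gen (l : Fin S.n) : Re (S.e l) := ⟨S.e l, Submodule.mem_span_singleton_self _⟩

theorem Setup.projective_Re (l : Fin S.n) : Module.Projective R (Re (S.e l)) :=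
  Module.Projective.of_split (Re (S.e l)).subtype
    ((LinearMap.toSpanSingleton R R (S.e l)).codRestrict (Re (S.e l))
      fun z => mem_Re.2 ⟨z, rfl⟩)
    (by ext z; exact mul_eq_of_mem_Re (S.he l) z.2)

theorem Setup.self_π_e (l : Fin S.n) (d : ℤ) :
    (selfGrd S.D S.hD).π d (S.e l) = if d = 0 then S.e l else 0 := by
  simp only [selfGrd, Grd.ofInternal]
  rw [projInt_apply_of_mem _ _ (S.he0 l)]
  rfl

theorem Setup.prj_π_gen (l : Fin S.n) (g : ℤ) : (S.prj l g).π g (S.gen l) = S.gen l := by
  refine Subtype.ext ?_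
  rw [reGrd_π_coe, sub_self]
  exact (S.self_π_e l 0).trans (if_pos rfl)

theorem Setup.coe_smul_gen (l : Fin S.n) (z : Re (S.e l)) : (z : R) • S.gen l = z :=
  Subtype.ext (mul_eq_of_mem_Re (S.he l) z.2)

variable {X : Type u} [AddCommGroup X] [Module k X] [Module R X] [IsScalarTower k R X]

omit [IsScalarTower k R X] in
/-- The components of `z • x` for homogeneous `x`. -/
theorem Setup.π_smul (a : Grd 𝒜 X) {g : ℤ} {x : X} (hx : a.π g x = x) (z : R) (d : ℤ) :
    a.π d (z • x) = (selfGrd S.D S.hD).π (d - g) z • x := by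
  induction z using DirectSum.Decomposition.inductionOn 𝒜 with
  | zero => simp
  | @homogeneous j z =>
    have h : a.π (g + j) ((z : R) • x) = (z : R) • x := by rw [a.smul_eq j z z.2, hx]
    simp only [selfGrd, Grd.ofInternal]
    rw [projInt_apply_of_mem _ _ z.2, ← h, a.π_π, h]
    by_cases hd : d = g + j
    · rw [if_pos hd, if_pos (by omega)]
    · rw [if_neg hd, if_neg (by omega), zero_smul]
  | add y z hy hz => simp [add_smul, hy, hz]

variable {ι : Type} [Fintype ι] [DecidableEq ι] (c : ι → Fin S.n) (g : ι → ℤ)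

/-- The graded module `⊕ R e_{c s}` shifted by `g s`. -/
noncomputable abbrev Setup.freeGrd : Grd 𝒜 (∀ s, Re (S.e (c s))) :=
  Grd.pi fun s => S.prj (c s) (g s)

/-- The map from `⊕ R e_{c s}` sending the generators to `x`. -/
noncomputable def Setup.freeMap (x : ι → X) : (∀ s, Re (S.e (c s))) →ₗ[R] X :=
  ∑ s, (LinearMap.toSpanSingleton R X (x s)).comp
    ((Submodule.subtype _).comp (LinearMap.proj s))

omit [DecidableEq ι] [IsScalarTower k R X] [Module k X] in
theorem Setup.freeMap_apply (x : ι → X) (z : ∀ s, Re (S.e (c s))) :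
    S.freeMap c x z = ∑ s, (z s : R) • x s := by
  simp [Setup.freeMap, LinearMap.sum_apply]

omit [DecidableEq ι] in
theorem Setup.freeMap_mem (a : Grd 𝒜 X) (δ : ℤ) (x : ι → X)
    (hx : ∀ s, a.π (g s + δ) (x s) = x s) :
    S.freeMap c x ∈ (S.freeGrd c g).homDeg a δ := by
  intro d z
  rw [S.freeMap_apply, S.freeMap_apply, map_sum]
  refine Finset.sum_congr rfl fun s _ => ?_
  rw [S.π_smul a (hx s)]
  show _ = ((S.prj (c s) (g s)).π d (z s) : R) • x s
  rw [reGrd_π_coe, show d + δ - (g s + δ) = d - g s by ring]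

/-- Homomorphisms of degree `δ` out of `⊕ R e_{c s}` are given by the images of the generators. -/
theorem Setup.finrank_homDeg_free [FiniteDimensional k X] (a : Grd 𝒜 X) (δ : ℤ) :
    Module.finrank k ((S.freeGrd c g).homDeg a δ) =
      ∑ s, nv a (S.e (c s)) (g s + δ) := by
  let G : ∀ s, ∀ t, Re (S.e (c t)) := fun s => Pi.single s (S.gen (c s))
  have hG : ∀ s, (S.freeGrd c g).π (g s) (G s) = G s := fun s => by
    funext t
    show (S.prj (c t) (g t)).π (g s) (G s t) = G s t
    rcases eq_or_ne t s with rfl | h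
    · simp only [G, Pi.single_eq_same, S.prj_π_gen]
    · simp [G, Pi.single_eq_of_ne h]
  have heG : ∀ s, S.e (c s) • G s = G s := fun s => by
    simp only [G, ← Pi.single_smul]
    exact congrArg _ (Subtype.ext (S.he (c s)))
  let Φ : (S.freeGrd c g).homDeg a δ →ₗ[k]
      ∀ s, LinearMap.range (cmp a (S.e (c s)) (g s + δ)) :=
    { toFun := fun f s => ⟨f.1 (G s), ⟨f.1 (G s), by
        rw [cmp_apply, f.2 (g s), hG, ← map_smul, heG]⟩⟩
      map_add' := fun _ _ => rfl
      map_smul' := fun _ _ => rfl }
  have hΦ : Function.Bijective Φ := by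
    constructor
    · intro f f' h
      refine Subtype.ext (LinearMap.pi_ext fun s z => ?_)
      have hz : (Pi.single s z : ∀ t, Re (S.e (c t))) = (z : R) • G s := by
        simp only [G, ← Pi.single_smul, S.coe_smul_gen]
      rw [hz, map_smul, map_smul]
      exact congrArg _ (congrArg Subtype.val (congrFun h s))
    · intro y
      have hy : ∀ s, a.π (g s + δ) (y s).1 = (y s).1 ∧ S.e (c s) • (y s).1 = (y s).1 := fun s => by
        obtain ⟨w, hw⟩ := (y s).2
        rw [← hw, cmp_apply, a.smul_zero_deg (S.he0 _), a.idem, ← mul_smul, (S.he _).eq]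
        exact ⟨rfl, rfl⟩
      refine ⟨⟨_, S.freeMap_mem c g a δ (fun s => (y s).1) fun s => (hy s).1⟩,
        funext fun s => Subtype.ext ?_⟩
      show S.freeMap c _ (G s) = _
      rw [S.freeMap_apply, Finset.sum_eq_single s]
      · simp only [G, Pi.single_eq_same]
        exact (hy s).2
      · intro t _ h; simp [G, Pi.single_eq_of_ne h]
      · simp
  rw [(LinearEquiv.ofBijective Φ hΦ).finrank_eq, Module.finrank_pi_fintype]
  rfl

end Vale.Agent.P195.Graded
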