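import Vale.Agent.P195.Graded.Main

/-!
Modules which carry a grading generated in degree zero: modules killed by the degrees at least two,
and, in characteristic zero, modules with a split simple top and no first self-extension.
-/

universe u v

namespace Vale.Agent.P195.Graded

variable {k : Type v} [Field k] {R : Type u} [Ring R] [Algebra k R]
variable {𝒜 : ℕ → Submodule k R} [GradedAlgebra 𝒜]
variable {M : Type u} [AddCommGroup M] [Module k M] [Module R M] [IsScalarTower k R M]

omit [IsScalarTower k R M] in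
/-- In a grading generated in degree zero, the degrees above those of the algebra vanish. -/
theorem eq_bot_of_generated (D : ℕ) (hD : ∀ d, D < d → 𝒜 d = ⊥) (ℳ : ℕ → Submodule k M)
    (hI : DirectSum.IsInternal ℳ) (hmul : ∀ i j, ∀ r ∈ 𝒜 i, ∀ x ∈ ℳ j, r • x ∈ ℳ (i + j))
    (hgen : Submodule.span R (ℳ 0 : Set M) = ⊤) (d : ℕ) (hd : D < d) : ℳ d = ⊥ := by
  refine (Submodule.eq_bot_iff _).2 fun x hx => ?_
  have key : ∀ y ∈ Submodule.span R (ℳ 0 : Set M), ∀ r : R, projInt ℳ hI d (r • y) = 0 := by
    intro y hy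
    induction hy using Submodule.span_induction with
    | mem y hy =>
      intro r
      induction r using DirectSum.Decomposition.inductionOn 𝒜 with
      | zero => simp
      | @homogeneous i r =>
        rcases lt_or_ge D i with hi | hi
        · have : (r : R) = 0 := by simpa [hD i hi] using r.2
          simp [this]
        · rw [projInt_apply_of_mem ℳ hI (hmul i 0 r r.2 y hy), if_neg (by omega)]
      | add r s hr hs => simp [add_smul, hr, hs]
    | zero => simp
    | add y z _ _ hy hz => intro r; simp [smul_add, hy r, hz r]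
    | smul s y _ hy => intro r; rw [← mul_smul]; exact hy _
  have h := key x (hgen ▸ Submodule.mem_top) 1
  rw [one_smul, projInt_apply_of_mem ℳ hI hx, if_pos rfl] at h
  exact h

/-- A module killed by the degrees at least two is graded, generated in degree zero. -/
theorem exists_grading_of_killed (hss : IsSemisimpleRing (𝒜 0))
    (hkill : ∀ i, 2 ≤ i → ∀ r ∈ 𝒜 i, ∀ x : M, r • x = 0) :
    ∃ ℳ : ℕ → Submodule k M, DirectSum.IsInternal ℳ ∧
      (∀ i j, ∀ r ∈ 𝒜 i, ∀ x ∈ ℳ j, r • x ∈ ℳ (i + j)) ∧
      Submodule.span R (ℳ 0 : Set M) = ⊤ := by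
  let A := SetLike.GradeZero.subalgebra 𝒜
  let E : (𝒜 0) ≃+* A :=
    { toFun := fun a => ⟨a.1, a.2⟩
      invFun := fun a => ⟨a.1, a.2⟩
      map_mul' := fun _ _ => rfl
      map_add' := fun _ _ => rfl }
  have : IsSemisimpleRing A := E.isSemisimpleRing
  let M₁ : Submodule A M := Submodule.span A {m | ∃ r ∈ 𝒜 1, ∃ x : M, r • x = m}
  obtain ⟨C₀, hC⟩ := exists_isCompl M₁
  let C : Submodule k M := C₀.restrictScalars k
  let T : Submodule k M := M₁.restrictScalars k
  have hCT : IsCompl T C :=
    ⟨by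
      rw [Submodule.disjoint_def]
      exact fun x hx hx' => Submodule.disjoint_def.1 hC.1 x hx hx',
    codisjoint_iff.2 (eq_top_iff.2 fun x _ => by
      obtain ⟨a, ha, b, hb, rfl⟩ := Submodule.mem_sup.1
        (show x ∈ M₁ ⊔ C₀ from hC.2.eq_top ▸ Submodule.mem_top)
      exact Submodule.mem_sup.2 ⟨a, ha, b, hb, rfl⟩)⟩
  let ℳ : ℕ → Submodule k M := fun j => if j = 0 then C else if j = 1 then T else ⊥
  have hT : ∀ r ∈ 𝒜 1, ∀ m ∈ M₁, r • m = 0 := by
    intro r hr m hm
    induction hm using Submodule.span_induction generalizing r with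
    | mem m hm =>
      obtain ⟨s, hs, x, rfl⟩ := hm
      rw [← mul_smul]
      exact hkill 2 le_rfl _ (SetLike.mul_mem_graded hr hs) x
    | zero => simp
    | add y z _ _ hy hz => simp [smul_add, hy r hr, hz r hr]
    | smul a y _ hy =>
      rw [Subalgebra.smul_def, ← mul_smul]
      exact hy _ (by simpa using SetLike.mul_mem_graded hr a.2)
  have hspan : Submodule.span R (C : Set M) = ⊤ := by
    have hC₀ : ∀ x ∈ C, x ∈ Submodule.span R (C : Set M) := fun x hx => Submodule.subset_span hx
    have hM₁ : ∀ a ∈ M₁, a ∈ Submodule.span R (C : Set M) := by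
      intro a ha
      induction ha using Submodule.span_induction with
      | mem m hm =>
        obtain ⟨r, hr, y, rfl⟩ := hm
        obtain ⟨a', ha', b', hb', rfl⟩ := Submodule.mem_sup.1
          (show y ∈ M₁ ⊔ C₀ from hC.2.eq_top ▸ Submodule.mem_top)
        rw [smul_add, hT r hr a' ha', zero_add]
        exact Submodule.smul_mem _ _ (hC₀ b' hb')
      | zero => exact zero_mem _
      | add y z _ _ hy hz => exact add_mem hy hz
      | smul a y _ hy => exact Submodule.smul_mem _ (a : R) hy
    refine eq_top_iff.2 fun x _ => ?_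
    obtain ⟨a, ha, b, hb, rfl⟩ := Submodule.mem_sup.1
      (show x ∈ M₁ ⊔ C₀ from hC.2.eq_top ▸ Submodule.mem_top)
    exact add_mem (hM₁ a ha) (hC₀ b hb)
  refine ⟨ℳ, ?_, ?_, by simpa [ℳ] using hspan⟩
  · rw [DirectSum.isInternal_submodule_iff_iSupIndep_and_iSup_eq_top]
    refine ⟨fun i => ?_, ?_⟩
    · rcases eq_or_ne i 0 with rfl | hi0
      · refine hCT.symm.1.mono (by simp [ℳ]) (iSup₂_le fun j hj => ?_)
        rcases eq_or_ne j 1 with rfl | hj1 <;> simp [ℳ, *]
      · rcases eq_or_ne i 1 with rfl | hi1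
        · refine hCT.1.mono (by simp [ℳ]) (iSup₂_le fun j hj => ?_)
          rcases eq_or_ne j 0 with rfl | hj0 <;> simp [ℳ, *]
        · simp [ℳ, hi0, hi1]
    · exact eq_top_iff.2 (hCT.2.eq_top ▸ sup_le (le_iSup_of_le 1 (by simp [ℳ]))
        (le_iSup_of_le 0 (by simp [ℳ])))
  · intro i j r hr x hx
    rcases Nat.lt_or_ge i 2 with hi | hi
    · rcases Nat.lt_or_ge j 2 with hj | hj
      · interval_cases i <;> interval_cases j
        · simp only [ℳ, if_true, add_zero] at hx ⊢
          exact C₀.smul_mem (⟨r, hr⟩ : A) hx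
        · simp only [ℳ, zero_add, one_ne_zero, if_false, if_true] at hx ⊢
          exact M₁.smul_mem (⟨r, hr⟩ : A) hx
        · simp only [ℳ, add_zero, one_ne_zero, if_false, if_true] at hx ⊢
          exact Submodule.subset_span ⟨r, hr, x, rfl⟩
        · simp only [ℳ, one_ne_zero, if_false, if_true] at hx
          rw [hT r hr x hx]
          exact zero_mem _
      · have : x = 0 := by simpa [ℳ, show j ≠ 0 by omega, show j ≠ 1 by omega] using hx
        simp [this]
    · rw [hkill i hi r hr x]
      exact zero_mem _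

section Derivation

variable (D : ℕ) (hD : ∀ d, D < d → 𝒜 d = ⊥)

/-- The Euler derivation, multiplying degree `d` by `d`. -/
noncomputable def euler : R →ₗ[k] R :=
  ∑ d ∈ Finset.range (D + 1), (d : k) • (selfGrd D hD).π (d : ℤ)

theorem euler_of_mem {i : ℕ} {r : R} (hr : r ∈ 𝒜 i) : euler D hD r = (i : k) • r := by
  simp only [euler, LinearMap.sum_apply, LinearMap.smul_apply, selfGrd, Grd.ofInternal,
    projInt_apply_of_mem _ _ hr]
  rcases lt_or_ge D i with hi | hi
  · have : r = 0 := by simpa [hD i hi] using hr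
    simp [this]
  · rw [Finset.sum_eq_single i]
    · simp
    · intro d _ hd; simp [hd]
    · intro h; exact absurd (Finset.mem_range.2 (by omega)) h

theorem euler_mul (r s : R) : euler D hD (r * s) = r * euler D hD s + euler D hD r * s := by
  induction r using DirectSum.Decomposition.inductionOn 𝒜 with
  | zero => simp
  | @homogeneous i r =>
    induction s using DirectSum.Decomposition.inductionOn 𝒜 with
    | zero => simp
    | @homogeneous j s =>
      rw [euler_of_mem D hD (SetLike.mul_mem_graded r.2 s.2), euler_of_mem D hD r.2,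
        euler_of_mem D hD s.2, mul_smul_comm, smul_mul_assoc, Nat.cast_add, add_smul, add_comm]
    | add s t hs ht => simp only [mul_add, map_add, hs, ht]; abel
  | add r t hr ht => simp only [add_mul, map_add, hr, ht]; abel

variable (𝒜) in
/-- The module `M × M` twisted by the Euler derivation. -/
def Tw (_ : ∀ d, D < d → 𝒜 d = ⊥) (M : Type u) := M × M

instance : AddCommGroup (Tw 𝒜 D hD M) := inferInstanceAs (AddCommGroup (M × M))

noncomputable instance : Module R (Tw 𝒜 D hD M) where
  smul r p := (r • p.1, euler D hD r • p.1 + r • p.2)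
  one_smul p := by
    show ((1 : R) • p.1, euler D hD 1 • p.1 + (1 : R) • p.2) = p
    have h1 : euler D hD (1 : R) = 0 := by
      rw [euler_of_mem D hD (SetLike.one_mem_graded 𝒜)]; simp
    rw [h1, zero_smul, zero_add, one_smul, one_smul]
    rfl
  mul_smul r s p := by
    show (((r * s) • p.1, euler D hD (r * s) • p.1 + (r * s) • p.2) : M × M) =
      (r • (s • p.1), euler D hD r • (s • p.1) + r • (euler D hD s • p.1 + s • p.2))
    rw [euler_mul, add_smul, smul_add, mul_smul, mul_smul, mul_smul, mul_smul]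
    congr 1
    abel
  smul_zero r := by
    show ((r • (0 : M), euler D hD r • (0 : M) + r • (0 : M)) : M × M) = (0, 0)
    simp
  smul_add r p q := by
    show ((r • (p.1 + q.1), euler D hD r • (p.1 + q.1) + r • (p.2 + q.2)) : M × M) =
      (r • p.1 + r • q.1, (euler D hD r • p.1 + r • p.2) + (euler D hD r • q.1 + r • q.2))
    simp only [smul_add]
    congr 1
    abel
  add_smul r s p := by
    show (((r + s) • p.1, euler D hD (r + s) • p.1 + (r + s) • p.2) : M × M) =
      (r • p.1 + s • p.1, (euler D hD r • p.1 + r • p.2) + (euler D hD s • p.1 + s • p.2))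
    simp only [map_add, add_smul]
    congr 1
    abel
  zero_smul p := by
    show (((0 : R) • p.1, euler D hD 0 • p.1 + (0 : R) • p.2) : M × M) = (0, 0)
    simp

include hD in
/-- Without first self-extension, the Euler derivation lifts to the module. -/
theorem exists_lift (h : EV R M M 1) :
    ∃ ψ : M →ₗ[k] M, ∀ (r : R) (m : M), ψ (r • m) = r • ψ m + euler D hD r • m := by
  let ι : M →ₗ[R] Tw 𝒜 D hD M :=
    { toFun := fun n => ((0, n) : M × M)
      map_add' := fun n n' => by
        show ((0, n + n') : M × M) = (0 + 0, n + n')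
        rw [add_zero]
      map_smul' := fun r n => by
        show ((0, r • n) : M × M) = (r • (0 : M), euler D hD r • (0 : M) + r • n)
        simp }
  let π : Tw 𝒜 D hD M →ₗ[R] M :=
    { toFun := fun p => (p : M × M).1
      map_add' := fun _ _ => rfl
      map_smul' := fun _ _ => rfl }
  have hι : Function.Injective ι := fun a b hab => congrArg Prod.snd hab
  have hπ : Function.Surjective π := fun m => ⟨((m, 0) : M × M), rfl⟩
  have hex : Function.Exact ι π := by
    intro p
    refine ⟨fun h0 => ⟨(p : M × M).2, Prod.ext h0.symm rfl⟩, ?_⟩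
    rintro ⟨n, rfl⟩; rfl
  obtain ⟨F, hF⟩ := ev_extend hι hπ hex h LinearMap.id
  have hsplit : ∀ m n : M, F ((m, n) : M × M) = F ((m, 0) : M × M) + n := fun m n => by
    have h1 : ((m, n) : M × M) = (m, 0) + (0, n) := by simp
    rw [show F ((m, n) : M × M) = F ((show Tw 𝒜 D hD M from ((m, 0) : M × M)) + ι n) from
      congrArg F h1, map_add]
    exact congrArg _ (LinearMap.congr_fun hF n)
  let φ : M →+ M := AddMonoidHom.mk' (fun m => -F ((m, 0) : M × M)) fun m n => by
    rw [show F ((m + n, 0) : M × M) = F ((show Tw 𝒜 D hD M from ((m, 0) : M × M)) +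
      (show Tw 𝒜 D hD M from ((n, 0) : M × M))) from congrArg F (by
        show ((m + n, 0) : M × M) = (m + n, 0 + 0)
        rw [add_zero]), map_add, neg_add]
  have key : ∀ (r : R) (m : M), φ (r • m) = r • φ m + euler D hD r • m := by
    intro r m
    have h1 : F ((r • m, euler D hD r • m + r • (0 : M)) : M × M) = r • F ((m, 0) : M × M) :=
      F.map_smul r (show Tw 𝒜 D hD M from ((m, 0) : M × M))
    rw [smul_zero, add_zero, hsplit] at h1
    show -F _ = r • -F _ + _
    rw [smul_neg, ← h1]
    abel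
  refine ⟨{ toFun := φ, map_add' := φ.map_add, map_smul' := fun c m => ?_ }, key⟩
  have h0 : euler D hD (algebraMap k R c) = 0 := by
    rw [euler_of_mem D hD (SetLike.algebraMap_mem_graded 𝒜 c)]; simp
  show φ (c • m) = c • φ m
  rw [← algebraMap_smul R c m, key, h0, zero_smul, add_zero, algebraMap_smul]

include hD in
/-- In characteristic zero, a module with split simple top and no first self-extension is graded,
generated in degree zero. -/
theorem exists_grading_of_top [CharZero k] (h : EV R M M 1) {e : R} (he0 : e ∈ 𝒜 0)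
    (hscal : ∀ a ∈ 𝒜 0, ∃ c : k, e * a * e = c • e) (x : M) (hex : e • x = x)
    (hgen : Submodule.span R {x} = ⊤) :
    ∃ ℳ : ℕ → Submodule k M, DirectSum.IsInternal ℳ ∧
      (∀ i j, ∀ r ∈ 𝒜 i, ∀ y ∈ ℳ j, r • y ∈ ℳ (i + j)) ∧
      Submodule.span R (ℳ 0 : Set M) = ⊤ := by
  obtain ⟨ψ, hψ⟩ := exists_lift D hD h
  let F : ℕ → Submodule k M := fun a =>
    Submodule.span k {y | ∃ i, a ≤ i ∧ ∃ r ∈ 𝒜 i, r • x = y}
  have Fmono : ∀ {a b : ℕ}, a ≤ b → F b ≤ F a := fun hab =>
    Submodule.span_mono fun y ⟨i, hi, hr⟩ => ⟨i, hab.trans hi, hr⟩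
  have Fsmul : ∀ (i b : ℕ), ∀ r ∈ 𝒜 i, ∀ y ∈ F b, r • y ∈ F (i + b) := by
    intro i b r hr y hy
    induction hy using Submodule.span_induction with
    | mem y hy =>
      obtain ⟨j, hj, s, hs, rfl⟩ := hy
      rw [← mul_smul]
      exact Submodule.subset_span ⟨i + j, by omega, _, SetLike.mul_mem_graded hr hs, rfl⟩
    | zero => simp
    | add y z _ _ hy hz => rw [smul_add]; exact add_mem hy hz
    | smul c y _ hy => rw [smul_comm]; exact Submodule.smul_mem _ c hy
  have Fx : ∀ r : R, r • x ∈ F 0 := by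
    intro r
    induction r using DirectSum.Decomposition.inductionOn 𝒜 with
    | zero => simp
    | @homogeneous i r => exact Submodule.subset_span ⟨i, Nat.zero_le i, r, r.2, rfl⟩
    | add r s hr hs => rw [add_smul]; exact add_mem hr hs
  have Ftop : F 0 = ⊤ := by
    refine eq_top_iff.2 fun y _ => ?_
    obtain ⟨r, rfl⟩ := Submodule.mem_span_singleton.1
      (hgen ▸ Submodule.mem_top : y ∈ Submodule.span R {x})
    exact Fx r
  have Fbot : F (D + 1) = ⊥ := by
    refine Submodule.span_eq_bot.2 fun y ⟨i, hi, r, hr, hy⟩ => ?_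
    have : r = 0 := by simpa [hD i (by omega)] using hr
    rw [← hy, this, zero_smul]
  -- the scalar on the top
  obtain ⟨c, hc⟩ : ∃ c : k, ψ x - c • x ∈ F 1 := by
    obtain ⟨s, hs⟩ := Submodule.mem_span_singleton.1
      (hgen ▸ Submodule.mem_top : ψ x ∈ Submodule.span R {x})
    have hfix : ψ x = e • ψ x := by
      conv_lhs => rw [← hex, hψ, euler_of_mem D hD he0, Nat.cast_zero, zero_smul, zero_smul, add_zero]
    suffices hs' : ∀ s : R, ∃ c : k, e • s • x - c • x ∈ F 1 by
      rw [hfix, ← hs]; exact hs' s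
    intro s
    induction s using DirectSum.Decomposition.inductionOn 𝒜 with
    | zero => exact ⟨0, by simp⟩
    | @homogeneous i s =>
      rcases Nat.eq_zero_or_pos i with rfl | hi
      · obtain ⟨c, hc⟩ := hscal s s.2
        refine ⟨c, ?_⟩
        have : e • (s : R) • x = c • x := by
          calc e • (s : R) • x = e • (s : R) • e • x := by rw [hex]
            _ = c • x := by rw [← mul_smul, ← mul_smul, hc, smul_assoc, hex]
        simp [this]
      · refine ⟨0, ?_⟩
        rw [zero_smul, sub_zero, ← mul_smul]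
        exact Submodule.subset_span ⟨i, hi, _, by simpa using SetLike.mul_mem_graded he0 s.2, rfl⟩
    | add s t hs ht =>
      obtain ⟨c, hc⟩ := hs
      obtain ⟨d, hd⟩ := ht
      refine ⟨c + d, ?_⟩
      convert add_mem hc hd using 1
      simp only [add_smul, smul_add]
      abel
  let T : Module.End k M := ψ - c • LinearMap.id
  have hTr : ∀ (i : ℕ), ∀ r ∈ 𝒜 i, ∀ y : M, T (r • y) = r • T y + (i : k) • r • y := by
    intro i r hr y
    simp only [T, LinearMap.sub_apply, LinearMap.smul_apply, LinearMap.id_apply, hψ,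
      euler_of_mem D hD hr, smul_assoc, smul_sub, smul_comm r c y]
    abel
  have hstep : ∀ a, ∀ y ∈ F a, T y - (a : k) • y ∈ F (a + 1) := by
    intro a y hy
    induction hy using Submodule.span_induction with
    | mem y hy =>
      obtain ⟨i, hi, r, hr, rfl⟩ := hy
      have h1 : r • T x ∈ F (a + 1) :=
        Fmono (by omega) (Fsmul i 1 r hr _ (by simpa [T] using hc))
      rw [hTr i r hr, add_sub_assoc, ← sub_smul]
      refine add_mem h1 ?_
      rcases eq_or_lt_of_le hi with rfl | hlt
      · simp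
      · exact Submodule.smul_mem _ _ (Submodule.subset_span ⟨i, hlt, r, hr, rfl⟩)
    | zero => simp
    | add y z _ _ hy hz =>
      rw [map_add, smul_add, add_sub_add_comm]; exact add_mem hy hz
    | smul b y _ hy =>
      rw [map_smul, smul_comm, ← smul_sub]; exact Submodule.smul_mem _ b hy
  -- the eigenvector congruent to `x`
  have hiter : ∀ a : ℕ, ∃ y, y - x ∈ F 1 ∧ T y ∈ F (a + 1) := by
    intro a
    induction a with
    | zero => exact ⟨x, by simp, by simpa [T] using hc⟩
    | succ a ih =>
      obtain ⟨y, hy, hTy⟩ := ih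
      have ha : ((a + 1 : ℕ) : k) ≠ 0 := Nat.cast_ne_zero.2 a.succ_ne_zero
      refine ⟨y - ((a + 1 : ℕ) : k)⁻¹ • T y, ?_, ?_⟩
      · rw [sub_right_comm]
        exact sub_mem hy (Submodule.smul_mem _ _ (Fmono (by omega) hTy))
      · have h := Submodule.smul_mem (F (a + 1 + 1)) (-((a + 1 : ℕ) : k)⁻¹) (hstep (a + 1) _ hTy)
        rw [smul_sub, smul_smul, neg_mul, inv_mul_cancel₀ ha, neg_smul, neg_smul, one_smul] at h
        rw [map_sub, map_smul]
        convert h using 1
        abel
  obtain ⟨x₀, hx₀, hTx₀⟩ := hiter D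
  rw [Fbot, Submodule.mem_bot] at hTx₀
  let ev : R →ₗ[k] M := (LinearMap.toSpanSingleton R M x₀).restrictScalars k
  let ℳ : ℕ → Submodule k M := fun a => (𝒜 a).map ev
  have hmem : ∀ a (y : M), y ∈ ℳ a ↔ ∃ r ∈ 𝒜 a, r • x₀ = y := fun a y => Submodule.mem_map
  have heig : ∀ a, ℳ a ≤ Module.End.eigenspace T (a : k) := by
    rintro a _ ⟨r, hr, rfl⟩
    rw [Module.End.mem_eigenspace_iff]
    show T (r • x₀) = (a : k) • r • x₀
    rw [hTr a r hr, hTx₀, smul_zero, zero_add]
  have hsup : ∀ j a, D + 1 ≤ a + j → F a ≤ ⨆ b, ℳ b := by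
    intro j
    induction j with
    | zero => intro a ha; exact (Fmono (by omega)).trans (Fbot ▸ bot_le)
    | succ j ih =>
      intro a ha
      refine Submodule.span_le.2 fun y ⟨i, hi, r, hr, hy⟩ => ?_
      have h1 : r • (x₀ - x) ∈ F (a + 1) := Fmono (by omega) (Fsmul i 1 r hr _ hx₀)
      have h2 : r • x₀ ∈ ⨆ b, ℳ b := le_iSup ℳ i ((hmem i _).2 ⟨r, hr, rfl⟩)
      have h3 := sub_mem h2 (ih (a + 1) (by omega) h1)
      rwa [smul_sub, sub_sub_cancel, hy] at h3
  have hgen0 : Submodule.span R {x₀} = ⊤ := by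
    refine eq_top_iff.2 fun y _ => ?_
    have hy : y ∈ ⨆ b, ℳ b := hsup (D + 1) 0 (by omega) (Ftop ▸ Submodule.mem_top)
    refine (iSup_le fun a z hz => ?_ :
      (⨆ b, ℳ b) ≤ (Submodule.span R {x₀}).restrictScalars k) hy
    obtain ⟨r, -, rfl⟩ := (hmem a z).1 hz
    exact Submodule.smul_mem _ _ (Submodule.mem_span_singleton_self x₀)
  refine ⟨ℳ, ?_, ?_, ?_⟩
  · rw [DirectSum.isInternal_submodule_iff_iSupIndep_and_iSup_eq_top]
    exact ⟨((Module.End.eigenspaces_iSupIndep T).comp Nat.cast_injective).mono heig,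
      eq_top_iff.2 (Ftop ▸ hsup (D + 1) 0 (by omega))⟩
  · intro i j r hr y hy
    obtain ⟨s, hs, rfl⟩ := (hmem j y).1 hy
    exact (hmem _ _).2 ⟨r * s, SetLike.mul_mem_graded hr hs, mul_smul r s x₀⟩
  · refine eq_top_iff.2 (hgen0 ▸ Submodule.span_mono ?_)
    intro y hy
    rw [Set.mem_singleton_iff] at hy
    exact (hmem 0 y).2 ⟨1, SetLike.one_mem_graded 𝒜, (one_smul R x₀).trans hy.symm⟩

end Derivation

end Vale.Agent.P195.Graded
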