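import Vale.Agent.P195.Graded.Numeric
import Vale.Agent.P195.Graded.Count

/-!
The Auslander-Reiten conjecture for graded modules without homomorphisms of nonpositive degree into
the algebra vanishing in degree zero, over positively graded algebras with semisimple degree zero
part.
-/

universe u v

open CategoryTheory CategoryTheory.Abelian

namespace Vale.Agent.P195.Graded

section Retract

variable {R : Type u} [Ring R]
variable {X Y Z : Type u} [AddCommGroup X] [Module R X] [AddCommGroup Y] [Module R Y]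
  [AddCommGroup Z] [Module R Z]

theorem ev_retract_left (s : X →ₗ[R] Y) (r : Y →ₗ[R] X) (hrs : r.comp s = LinearMap.id) (i : ℕ)
    (h : EV R Y Z i) : EV R X Z i := by
  refine subsingleton_of_forall_eq 0 fun x => ?_
  have h0 : (Ext.mk₀ (ModuleCat.ofHom r)).comp x (zero_add i) = 0 := h.elim _ _
  calc x = (Ext.mk₀ (𝟙 (ModuleCat.of R X))).comp x (zero_add i) := (Ext.mk₀_id_comp x).symm
    _ = (Ext.mk₀ (ModuleCat.ofHom s ≫ ModuleCat.ofHom r)).comp x (zero_add i) := by
        congr 2; ext y; exact (LinearMap.congr_fun hrs y).symm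
    _ = 0 := by rw [← Ext.mk₀_comp_mk₀_assoc, h0, Ext.comp_zero]

theorem ev_retract_right (s : X →ₗ[R] Y) (r : Y →ₗ[R] X) (hrs : r.comp s = LinearMap.id) (i : ℕ)
    (h : EV R Z Y i) : EV R Z X i := by
  refine subsingleton_of_forall_eq 0 fun x => ?_
  have h0 : x.comp (Ext.mk₀ (ModuleCat.ofHom s)) (add_zero i) = 0 := h.elim _ _
  calc x = x.comp (Ext.mk₀ (𝟙 (ModuleCat.of R X))) (add_zero i) := (Ext.comp_mk₀_id x).symm
    _ = x.comp (Ext.mk₀ (ModuleCat.ofHom s ≫ ModuleCat.ofHom r)) (add_zero i) := by
        congr 2; ext y; exact (LinearMap.congr_fun hrs y).symm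
    _ = 0 := by
        rw [← Ext.mk₀_comp_mk₀, ← Ext.comp_assoc_of_second_deg_zero, h0, Ext.zero_comp]

end Retract

variable {k : Type v} [Field k] {R : Type u} [Ring R] [Algebra k R] [Module.Finite k R]
variable {𝒜 : ℕ → Submodule k R} [GradedAlgebra 𝒜] (S : Setup 𝒜)

omit [Module.Finite k R] [GradedAlgebra 𝒜] in
theorem homDeg_eq_bot {X Y : Type u} [AddCommGroup X] [Module k X] [Module R X]
    [AddCommGroup Y] [Module k Y] [Module R Y] [IsScalarTower k R Y] (a : Grd 𝒜 X) (b : Grd 𝒜 Y)
    (δ : ℤ) (h : ∀ d, a.π d = 0 ∨ b.π (d + δ) = 0) : a.homDeg b δ = ⊥ := by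
  refine (Submodule.eq_bot_iff _).2 fun f hf => LinearMap.ext fun x => ?_
  rw [← a.sum_eq x, map_sum]
  refine Finset.sum_eq_zero fun d _ => ?_
  rcases h d with h | h
  · rw [h]; exact map_zero f
  · rw [← hf d x, h]; rfl

/-- The degree bound for the vanishing. -/
abbrev Setup.bound : ℕ := (S.n + 3) * S.D + 1

/-- A graded module with no maps of degree at most zero into the algebra is zero. -/
theorem Setup.subsingleton_of_no_maps {M : Type u} [AddCommGroup M] [Module k M] [Module R M]
    [IsScalarTower k R M] [FiniteDimensional k M] (a : Grd 𝒜 M)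
    (hsupp : ∀ d : ℤ, d < 0 ∨ (S.D : ℤ) < d → a.π d = 0)
    (hM : ∀ i, 1 ≤ i → i ≤ S.bound → EV R M M i) (hR : ∀ i, 1 ≤ i → i ≤ S.bound → EV R M R i)
    (hnm : ∀ δ : ℤ, δ ≤ 0 → a.homDeg (selfGrd S.D S.hD) δ = ⊥) : Subsingleton M := by
  have hMR := @finiteDimensional_hom k _ R _ _ M M
  let H : Fin S.n → Fin S.n → ℤ → ℚ := fun i l d => nv (S.prj l 0) (S.e i) d
  let m : Fin S.n → ℤ → ℚ := fun i d => nv a (S.e i) d
  let ms : Fin S.n → ℤ → ℚ := fun l δ => Module.finrank k (a.homDeg (S.prj l 0) δ)
  let e : ℤ → ℚ := fun δ => Module.finrank k (a.homDeg a δ)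
  have hprj : ∀ l (d : ℤ), d < 0 ∨ (S.D : ℤ) < d → (S.prj l 0).π d = 0 := fun l d hd =>
    reGrd_π_eq_zero _ _ _ _ _ (by simpa using hd)
  have sms : ∀ l d, d ≤ 0 ∨ (S.D : ℤ) < d → ms l d = 0 := by
    intro l δ hδ
    suffices h : a.homDeg (S.prj l 0) δ = ⊥ by simp only [ms]; rw [h, finrank_bot, Nat.cast_zero]
    rcases hδ with hδ | hδ
    · refine (Submodule.eq_bot_iff _).2 fun f hf => ?_
      have hmem : (Re (S.e l)).subtype.comp f ∈ a.homDeg (selfGrd S.D S.hD) δ := fun d x => by
        simp only [LinearMap.comp_apply, Submodule.subtype_apply]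
        rw [← hf d x, reGrd_π_coe, sub_zero]
      rw [hnm δ hδ, Submodule.mem_bot] at hmem
      exact LinearMap.ext fun x => Subtype.ext (LinearMap.congr_fun hmem x)
    · refine homDeg_eq_bot a _ δ fun d => ?_
      rcases lt_or_ge d 0 with hd | hd
      · exact Or.inl (hsupp d (Or.inl hd))
      · exact Or.inr (hprj l _ (Or.inr (by omega)))
  have se : ∀ δ : ℤ, δ < -(S.D : ℤ) ∨ (S.D : ℤ) < δ → e δ = 0 := by
    intro δ hδ
    suffices h : a.homDeg a δ = ⊥ by simp only [e]; rw [h, finrank_bot, Nat.cast_zero]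
    refine homDeg_eq_bot a a δ fun d => ?_
    by_cases hd : d < 0 ∨ (S.D : ℤ) < d
    · exact Or.inl (hsupp d hd)
    · exact Or.inr (hsupp _ (by omega))
  have hlow : ∀ d < ((0 : ℕ) : ℤ), a.π d = 0 := fun d hd => hsupp d (Or.inl (by simpa using hd))
  have h0 : e 0 = 0 := by
    refine e_zero S.D H m ms e
      (fun i l d hd => by simp [H, nv_eq_zero _ _ _ (hprj l d hd)])
      (fun i d hd => by simp [m, nv_eq_zero _ _ _ (hsupp d hd)]) sms se S.det_cartan_zero
      (S.pser a) (fun i c => ?_) (fun l c hc => ?_) (fun c hc => ?_)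
    · have h := congrArg (PowerSeries.coeff c) (congrFun (S.hser_mulVec_pser a) i)
      simp only [Matrix.mulVec, dotProduct, map_sum,
        PowerSeries.coeff_mul,
        Finset.Nat.sum_antidiagonal_eq_sum_range_succ_mk, Setup.mser, PowerSeries.coeff_mk,
        Setup.hser, Matrix.of_apply] at h
      rw [show m i c = (nv a (S.e i) (c : ℤ) : ℚ) from rfl, ← h]
      refine Finset.sum_congr rfl fun l _ => ?_
      rw [← Finset.sum_range_reflect]
      refine Finset.sum_congr rfl fun b hb => ?_
      have hb' : b ≤ c := Nat.lt_succ_iff.1 (Finset.mem_range.1 hb)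
      rw [mul_comm, show c + 1 - 1 - b = c - b by omega, show c - (c - b) = b by omega]
    · rw [Fintype.card_fin] at hc
      refine (S.count (S.prj l 0) ((S.D : ℤ) - c) (c + 1)
        (fun d hd => hprj l _ (Or.inr (by push_cast at hd; omega)))
        (c + 1) 0 M a (by omega) hlow fun i hi hic => ?_).symm
      have := S.projective_Re l
      have : Module.Finite R (Re (S.e l)) := Module.Finite.span_singleton R (S.e l)
      exact ev_of_finite_projective i (hR i hi (by simp only [Setup.bound]; omega))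
    · rw [Fintype.card_fin] at hc
      exact (S.count a ((S.D : ℤ) - c) (c + 1)
        (fun d hd => hsupp _ (Or.inr (by push_cast at hd; omega)))
        (c + 1) 0 M a (by omega) hlow fun i hi hic =>
          hM i hi (by simp only [Setup.bound]; omega)).symm
  have hid : LinearMap.id ∈ a.homDeg a 0 := fun d x => by simp
  have hbot : a.homDeg a 0 = ⊥ := Submodule.finrank_eq_zero.1 (Nat.cast_eq_zero.1 (h0 : (Module.finrank k (a.homDeg a 0) : ℚ) = 0))
  rw [hbot, Submodule.mem_bot] at hid
  exact subsingleton_of_forall_eq 0 fun x => LinearMap.congr_fun hid x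

/-- The Auslander-Reiten conjecture for graded modules in nonnegative degrees all whose maps of
nonpositive degree into the algebra are determined in degree zero. -/
theorem Setup.projective_of_maps (N : ℕ) :
    ∀ (M : Type u) [AddCommGroup M] [Module k M] [Module R M] [IsScalarTower k R M]
      [FiniteDimensional k M] (a : Grd 𝒜 M), Module.finrank k M ≤ N →
      (∀ d : ℤ, d < 0 ∨ (S.D : ℤ) < d → a.π d = 0) →
      (∀ i, 1 ≤ i → i ≤ S.bound → EV R M M i) → (∀ i, 1 ≤ i → i ≤ S.bound → EV R M R i) →
      (∀ δ : ℤ, δ ≤ 0 → ∀ f ∈ a.homDeg (selfGrd S.D S.hD) δ, (∀ x, f (a.π 0 x) = 0) → f = 0) →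
      Module.Projective R M := by
  induction N with
  | zero =>
    intro M _ _ _ _ _ a hle _ _ _ _
    have : Subsingleton M := Module.finrank_zero_iff.1 (Nat.le_zero.1 hle)
    infer_instance
  | succ N ih =>
    intro M _ _ _ _ _ a hle hsupp hM hR hmaps
    let b := selfGrd S.D S.hD
    by_cases hex : ∃ f ∈ a.homDeg b 0, ∃ x, f (a.π 0 x) ≠ 0
    · obtain ⟨f, hf, x, hx⟩ := hex
      -- the left ideal of values in degree zero
      let A := SetLike.GradeZero.subalgebra 𝒜
      have hss : ∃ e₁ x₁, IsIdempotentElem e₁ ∧ e₁ ≠ 0 ∧ e₁ ∈ 𝒜 0 ∧ a.π 0 x₁ = x₁ ∧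
          f x₁ = e₁ := by
        have : IsSemisimpleRing A := S.hss
        let I : Ideal A :=
          { carrier := {z | ∃ y, a.π 0 y = y ∧ f y = z.1}
            add_mem' := fun {z w} ⟨y, hy, hy'⟩ ⟨y', hy₂, hy₂'⟩ =>
              ⟨y + y', by rw [map_add, hy, hy₂], by rw [map_add, hy', hy₂']; rfl⟩
            zero_mem' := ⟨0, map_zero _, map_zero f⟩
            smul_mem' := fun r z ⟨y, hy, hy'⟩ =>
              ⟨(r : R) • y, by rw [a.smul_zero_deg r.2, hy], by rw [map_smul, hy']; rfl⟩ }
        obtain ⟨e₁, he₁, hI⟩ := IsSemisimpleRing.ideal_eq_span_idempotent I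
        have hmem : e₁ ∈ I := hI ▸ Ideal.mem_span_singleton_self e₁
        obtain ⟨x₁, hx₁, hfx₁⟩ := hmem
        refine ⟨e₁.1, x₁, congrArg Subtype.val he₁, fun h0 => ?_, e₁.2, hx₁, hfx₁⟩
        have hfA : f (a.π 0 x) ∈ 𝒜 0 := by
          rw [← hf 0 x, add_zero]
          exact projInt_mem 𝒜 _ 0 _
        have hxI : (⟨_, hfA⟩ : A) ∈ I := ⟨a.π 0 x, a.idem 0 x, rfl⟩
        rw [hI, show e₁ = 0 from Subtype.ext h0, Ideal.span_singleton_eq_bot.2 rfl,
          Ideal.mem_bot] at hxI
        exact hx (congrArg Subtype.val hxI)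
      obtain ⟨e, x₁, he, hne, he0, hx₁, hfx⟩ := hss
      let g : M →ₗ[R] Re e :=
        ((LinearMap.toSpanSingleton R R e).comp f).codRestrict (Re e) fun y => mem_Re.2 ⟨f y, rfl⟩
      let x₂ := e • x₁
      have hx₂ : a.π 0 x₂ = x₂ := by simp only [x₂]; rw [a.smul_zero_deg he0, hx₁]
      have hgs : ∀ z : Re e, g ((z : R) • x₂) = z := fun z => Subtype.ext <| by
        show f ((z : R) • x₂) * e = z
        simp only [x₂, map_smul, hfx, smul_eq_mul, he.eq, mul_eq_of_mem_Re he z.2]
      let s : Re e →ₗ[R] M := (LinearMap.toSpanSingleton R M x₂).comp (Re e).subtype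
      let p : M →ₗ[R] M := LinearMap.id - s.comp g
      let K := LinearMap.ker g
      have hg0 : g ∈ a.homDeg (reGrd S.D S.hD he0 0) 0 := fun d y => Subtype.ext <| by
        rw [reGrd_π_coe, add_zero, sub_zero]
        show b.π d (f y * e) = f (a.π d y) * e
        rw [selfGrd_mul_right _ _ he0, ← hf d y, add_zero]
      have hst : ∀ d, ∀ y ∈ K, a.π d y ∈ K := fun d y (hy : g y = 0) => by
        show g _ = 0
        rw [← hg0 d y, hy, map_zero]
      let aK := a.restrict K hst
      let p' : M →ₗ[R] K := p.codRestrict K fun y => by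
        show g (y - s (g y)) = 0
        rw [map_sub, show s (g y) = (g y : R) • x₂ from rfl, hgs, sub_self]
      have hp' : ∀ y : K, p' y = y := fun y => Subtype.ext <| by
        show (y : M) - s (g y) = y
        rw [show g y.1 = 0 from y.2, map_zero, sub_zero]
      have hs0 : s ∈ (reGrd S.D S.hD he0 0).homDeg a 0 := fun d z => by
        show a.π (d + 0) ((z : R) • x₂) = ((reGrd S.D S.hD he0 0).π d z : R) • x₂
        rw [S.π_smul a hx₂, reGrd_π_coe, add_zero, sub_zero]
      have hp0 : p' ∈ a.homDeg aK 0 := fun d y => Subtype.ext <| by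
        show a.π (d + 0) (y - s (g y)) = a.π d y - s (g (a.π d y))
        rw [map_sub, add_zero, ← hg0 d y, ← hs0, add_zero, add_zero]
      have : FiniteDimensional k K :=
        Module.Finite.of_injective (K.subtype.restrictScalars k) K.injective_subtype
      have hlt : Module.finrank k K < Module.finrank k M := by
        refine Submodule.finrank_lt (s := K.restrictScalars k) fun htop => ?_
        have : x₂ ∈ K.restrictScalars k := htop ▸ Submodule.mem_top
        have h := hgs ⟨e, Submodule.mem_span_singleton_self e⟩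
        rw [map_smul, show g x₂ = 0 from this, smul_zero] at h
        exact hne (congrArg Subtype.val h).symm
      have hK : Module.Projective R K := by
        refine ih K aK (by omega) (fun d hd => ?_) (fun i h1 h2 => ?_) (fun i h1 h2 => ?_)
          fun δ hδ h hh h0 => ?_
        · exact LinearMap.ext fun y => Subtype.ext (by
            show a.π d y.1 = 0
            rw [hsupp d hd]; rfl)
        · exact ev_retract_left K.subtype p' (LinearMap.ext hp') i
            (ev_retract_right K.subtype p' (LinearMap.ext hp') i (hM i h1 h2))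
        · exact ev_retract_left K.subtype p' (LinearMap.ext hp') i (hR i h1 h2)
        · have h1 := hmaps δ hδ (h.comp p') (by simpa using a.id_comp_mem aK b hp0 hh) fun y => by
            show h (p' (a.π 0 y)) = 0
            rw [← hp0 0 y, add_zero]
            exact h0 (p' y)
          exact LinearMap.ext fun y => by
            have := LinearMap.congr_fun h1 (y : M)
            rwa [LinearMap.comp_apply, hp'] at this
      have : Module.Projective R (Re e) := Module.Projective.of_split (Re e).subtype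
        ((LinearMap.toSpanSingleton R R e).codRestrict (Re e) fun z => mem_Re.2 ⟨z, rfl⟩)
        (by ext z; exact mul_eq_of_mem_Re he z.2)
      exact Module.Projective.of_split (p'.prod g) (K.subtype.coprod s)
        (LinearMap.ext fun y => show (p' y : M) + s (g y) = y by simp [p', p])
    · push Not at hex
      have := S.subsingleton_of_no_maps a hsupp hM hR fun δ hδ => by
        refine (Submodule.eq_bot_iff _).2 fun f hf => hmaps δ hδ f hf fun x => ?_
        rcases eq_or_lt_of_le hδ with rfl | hlt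
        · exact hex f hf x
        · rw [← hf 0 x, selfGrd, Grd.ofInternal_π_of_lt _ _ _ _ _ _ (Or.inl (by omega))]; rfl
      infer_instance

end Vale.Agent.P195.Graded
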