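import Mathlib

/-!
The Hilbert series identity behind the graded Auslander-Reiten argument: if a power series vector
`p` solves the three linear systems attached to the Cartan matrix, the module and its endomorphisms,
then there are no endomorphisms of degree zero.
-/

open Polynomial Matrix

namespace Vale.Agent.P195.Graded

/-- The polynomial with coefficients `f 0, …, f D`. -/
noncomputable def pol (D : ℕ) (f : ℤ → ℚ) : ℚ[X] :=
  ∑ a ∈ Finset.range (D + 1), C (f (a : ℕ)) * X ^ a

/-- The polynomial with coefficients `f D, f (D-1), …, f 0`. -/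
noncomputable def rev (D : ℕ) (f : ℤ → ℚ) : ℚ[X] := pol D fun d => f (D - d)

theorem natDegree_pol (D : ℕ) (f : ℤ → ℚ) : (pol D f).natDegree ≤ D :=
  natDegree_sum_le_of_forall_le _ _ fun _ ha =>
    (natDegree_C_mul_X_pow_le _ _).trans (Nat.lt_succ_iff.1 (Finset.mem_range.1 ha))

theorem natDegree_rev (D : ℕ) (f : ℤ → ℚ) : (rev D f).natDegree ≤ D := natDegree_pol D _

theorem coeff_pol (D : ℕ) (f : ℤ → ℚ) (hf : ∀ d : ℤ, (D : ℤ) < d → f d = 0) (b : ℕ) :
    (pol D f).coeff b = f b := by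
  simp only [pol, finsetSum_coeff, coeff_C_mul_X_pow, Finset.sum_ite_eq, Finset.mem_range]
  split_ifs with h
  · rfl
  · exact (hf b (by omega)).symm

theorem coeff_rev (D : ℕ) (f : ℤ → ℚ) (hf : ∀ d : ℤ, d < 0 → f d = 0) (b : ℕ) :
    (rev D f).coeff b = f (D - b) :=
  coeff_pol D _ (fun d hd => hf _ (by omega)) b

theorem eval_rev (D : ℕ) (f : ℤ → ℚ) (x : ℚ) (hx : x ≠ 0) :
    (rev D f).eval x = x ^ D * (pol D f).eval x⁻¹ := by
  simp only [rev, pol, eval_finsetSum, eval_mul, eval_C, eval_pow, eval_X, Finset.mul_sum]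
  rw [← Finset.sum_range_reflect (n := D + 1)]
  refine Finset.sum_congr rfl fun a ha => ?_
  have ha' : a ≤ D := Nat.lt_succ_iff.1 (Finset.mem_range.1 ha)
  have h1 : D + 1 - 1 - a = D - a := by omega
  rw [h1, inv_pow, Nat.cast_sub ha', sub_sub_cancel, pow_sub₀ x hx ha']
  ring

theorem coeff_coe_mul (f : ℚ[X]) (p : PowerSeries ℚ) (c : ℕ) :
    PowerSeries.coeff c ((f : PowerSeries ℚ) * p) =
      ∑ a ∈ Finset.range (c + 1), PowerSeries.coeff a p * f.coeff (c - a) := by
  rw [mul_comm, PowerSeries.coeff_mul, Finset.Nat.sum_antidiagonal_eq_sum_range_succ_mk]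
  simp

theorem coeff_mul_congr (p q r : PowerSeries ℚ) (N : ℕ)
    (h : ∀ c ≤ N, PowerSeries.coeff c p = PowerSeries.coeff c q) :
    ∀ c ≤ N, PowerSeries.coeff c (r * p) = PowerSeries.coeff c (r * q) := by
  intro c hc
  simp only [PowerSeries.coeff_mul]
  refine Finset.sum_congr rfl fun x hx => ?_
  rw [h x.2 (by have : x.1 + x.2 = c := Finset.HasAntidiagonal.mem_antidiagonal.1 hx; omega)]

variable {ι : Type*} [Fintype ι] [DecidableEq ι]

theorem natDegree_det_le (A : Matrix ι ι ℚ[X]) (D : ℕ) (hA : ∀ i j, (A i j).natDegree ≤ D) :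
    A.det.natDegree ≤ Fintype.card ι * D := by
  rw [Matrix.det_apply]
  refine natDegree_sum_le_of_forall_le _ _ fun σ _ => (natDegree_smul_le _ _).trans ?_
  refine (natDegree_prod_le _ _).trans ?_
  exact (Finset.sum_le_card_nsmul _ _ D fun i _ => hA _ _).trans_eq (by simp)

theorem natDegree_adjugate_le (A : Matrix ι ι ℚ[X]) (D : ℕ) (hA : ∀ i j, (A i j).natDegree ≤ D)
    (i j : ι) : (A.adjugate i j).natDegree ≤ Fintype.card ι * D := by
  rw [Matrix.adjugate_apply]
  refine natDegree_det_le _ D fun a b => ?_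
  rcases eq_or_ne a j with rfl | h
  · rw [Matrix.updateRow_self, Pi.single_apply]
    split_ifs <;> simp
  · rw [Matrix.updateRow_ne h]
    exact hA a b

/-- The power series vector `p` makes `e` vanish at zero. -/
theorem e_zero (D : ℕ) (H : ι → ι → ℤ → ℚ) (m ms : ι → ℤ → ℚ) (e : ℤ → ℚ)
    (sH : ∀ i l d, d < 0 ∨ (D : ℤ) < d → H i l d = 0)
    (sm : ∀ i d, d < 0 ∨ (D : ℤ) < d → m i d = 0)
    (sms : ∀ l d, d ≤ 0 ∨ (D : ℤ) < d → ms l d = 0)
    (se : ∀ d : ℤ, d < -(D : ℤ) ∨ (D : ℤ) < d → e d = 0)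
    (hdet : (Matrix.of fun i l => H i l 0).det ≠ 0)
    (p : ι → PowerSeries ℚ)
    (ha : ∀ i (c : ℕ), ∑ l, ∑ a ∈ Finset.range (c + 1),
      PowerSeries.coeff a (p l) * H i l ((c - a : ℕ) : ℤ) = m i c)
    (hb : ∀ l (c : ℕ), c ≤ (Fintype.card ι + 3) * D → ∑ i, ∑ a ∈ Finset.range (c + 1),
      PowerSeries.coeff a (p i) * H i l ((a : ℤ) + (D - c)) = ms l (D - c))
    (hc : ∀ c : ℕ, c ≤ (Fintype.card ι + 3) * D → ∑ i, ∑ a ∈ Finset.range (c + 1),
      PowerSeries.coeff a (p i) * m i ((a : ℤ) + (D - c)) = e (D - c)) :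
    e 0 = 0 := by
  set N := (Fintype.card ι + 3) * D with hN
  let Hp : Matrix ι ι ℚ[X] := Matrix.of fun i l => pol D (H i l)
  let mp : ι → ℚ[X] := fun i => pol D (m i)
  let e' : ℤ → ℚ := fun d => e (d - D)
  set Δ : ℚ[X] := Hp.det with hΔ
  let q : ι → ℚ[X] := Hp.adjugate *ᵥ mp
  have hΔ0 : Δ.coeff 0 ≠ 0 := by
    rw [coeff_zero_eq_eval_zero, hΔ, ← coe_evalRingHom, RingHom.map_det]
    convert hdet using 3
    ext i l
    simp only [RingHom.mapMatrix_apply, Matrix.map_apply, Matrix.of_apply, coe_evalRingHom, Hp,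
      ← coeff_zero_eq_eval_zero]
    exact coeff_pol D _ (fun d hd => sH i l d (Or.inr hd)) 0
  -- `Δ p = q`
  have hA : ((Hp.map (Polynomial.coeToPowerSeries.ringHom : ℚ[X] →+* PowerSeries ℚ)) *ᵥ p) =
      fun i => (mp i : PowerSeries ℚ) := by
    funext i
    ext c
    simp only [Matrix.mulVec, dotProduct, map_sum, Matrix.map_apply,
      Polynomial.coeToPowerSeries.ringHom_apply, coeff_coe_mul, Polynomial.coeff_coe, mp]
    rw [coeff_pol D _ (fun d hd => sm i d (Or.inr hd)), ← ha i c]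
    refine Finset.sum_congr rfl fun l _ => Finset.sum_congr rfl fun a _ => ?_
    rw [show Hp i l = pol D (H i l) from rfl, coeff_pol D _ (fun d hd => sH i l d (Or.inr hd))]
  have hq : ∀ i, (Δ : PowerSeries ℚ) * p i = (q i : PowerSeries ℚ) := by
    intro i
    have h := congrArg
      (fun v => (Hp.adjugate.map (Polynomial.coeToPowerSeries.ringHom : ℚ[X] →+* PowerSeries ℚ))
        *ᵥ v) hA
    simp only [Matrix.mulVec_mulVec, ← Matrix.map_mul, Matrix.adjugate_mul] at h
    have h' := congrFun h i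
    simp only [q, Matrix.mulVec, dotProduct]
    rw [← Polynomial.coeToPowerSeries.ringHom_apply (φ := Finset.sum _ _), map_sum]
    simpa [hΔ, Matrix.mulVec, dotProduct, Matrix.one_apply, Finset.sum_ite_eq,
      ite_mul, apply_ite] using h'
  have hqdeg : ∀ i, (q i).natDegree ≤ Fintype.card ι * D + D := fun i =>
    natDegree_sum_le_of_forall_le _ _ fun j _ => natDegree_mul_le.trans
      (Nat.add_le_add (natDegree_adjugate_le Hp D (fun a b => natDegree_pol D _) i j)
        (natDegree_pol D _))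
  have hΔdeg : Δ.natDegree ≤ Fintype.card ι * D :=
    natDegree_det_le Hp D fun a b => natDegree_pol D _
  -- truncated series equalities are polynomial identities
  have key : ∀ (g : ι → ℚ[X]) (r : ℚ[X]), (∀ i, (g i).natDegree ≤ D) → r.natDegree ≤ 2 * D →
      (∀ c ≤ N, PowerSeries.coeff c (∑ i, (g i : PowerSeries ℚ) * p i) = r.coeff c) →
      ∑ i, g i * q i = Δ * r := by
    intro g r hg hr h
    apply Polynomial.ext
    intro c
    rcases le_or_gt c N with hcN | hcN
    · have := coeff_mul_congr _ (r : PowerSeries ℚ) (Δ : PowerSeries ℚ) N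
        (fun c hc => (h c hc).trans (Polynomial.coeff_coe r c).symm) c hcN
      rw [← Polynomial.coe_mul, Polynomial.coeff_coe] at this
      rw [← this, Finset.mul_sum, ← Polynomial.coeff_coe]
      congr 1
      rw [← Polynomial.coeToPowerSeries.ringHom_apply, map_sum]
      refine Finset.sum_congr rfl fun i _ => ?_
      rw [map_mul, Polynomial.coeToPowerSeries.ringHom_apply,
        Polynomial.coeToPowerSeries.ringHom_apply, ← hq i]
      ring
    · rw [coeff_eq_zero_of_natDegree_lt, coeff_eq_zero_of_natDegree_lt]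
      · refine lt_of_le_of_lt (natDegree_mul_le.trans (Nat.add_le_add hΔdeg hr)) ?_
        rw [hN] at hcN; nlinarith
      · refine lt_of_le_of_lt (natDegree_sum_le_of_forall_le _ _ fun i _ =>
          natDegree_mul_le.trans (Nat.add_le_add (hg i) (hqdeg i))) ?_
        rw [hN] at hcN; nlinarith
  have hB : ∀ l, ∑ i, rev D (H i l) * q i = Δ * rev D (ms l) := fun l => by
    refine key _ _ (fun i => natDegree_rev D _) ((natDegree_rev D _).trans (by omega)) fun c hcN => ?_
    rw [coeff_rev D _ (fun d hd => sms l d (Or.inl hd.le)), ← hb l c hcN, map_sum]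
    refine Finset.sum_congr rfl fun i _ => ?_
    rw [coeff_coe_mul]
    refine Finset.sum_congr rfl fun a ha => ?_
    have ha' : a ≤ c := Nat.lt_succ_iff.1 (Finset.mem_range.1 ha)
    rw [coeff_rev D _ (fun d hd => sH i l d (Or.inl hd)), Nat.cast_sub ha']
    congr 2; ring
  have hC : ∑ i, rev D (m i) * q i = Δ * rev (2 * D) e' := by
    refine key _ _ (fun i => natDegree_rev D _) (natDegree_rev _ _) fun c hcN => ?_
    rw [coeff_rev _ _ (fun d hd => se _ (Or.inl (by omega))),
      show ((2 * D : ℕ) : ℤ) - c - D = (D : ℤ) - c by omega, ← hc c hcN, map_sum]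
    refine Finset.sum_congr rfl fun i _ => ?_
    rw [coeff_coe_mul]
    refine Finset.sum_congr rfl fun a ha => ?_
    have ha' : a ≤ c := Nat.lt_succ_iff.1 (Finset.mem_range.1 ha)
    rw [coeff_rev D _ (fun d hd => sm i d (Or.inl hd)), Nat.cast_sub ha']
    congr 2; ring
  have hAe : ∀ i, ∑ l, Hp i l * q l = Δ * mp i := fun i => by
    have h : Hp *ᵥ q = Δ • mp := by
      simp only [q, Matrix.mulVec_mulVec, Matrix.mul_adjugate, Matrix.smul_mulVec,
        Matrix.one_mulVec, hΔ]
    exact congrFun h i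
  -- the final identity
  have hfin : Δ * pol (2 * D) e' = X ^ D * ∑ l, q l * pol D (ms l) := by
    apply Polynomial.eq_of_infinite_eval_eq
    have hbad : {y : ℚ | y = 0 ∨ Δ.eval y⁻¹ = 0}.Finite := by
      refine ((Δ.roots.toFinset.image fun x => x⁻¹).finite_toSet.union
        (Set.finite_singleton 0)).subset ?_
      intro y hy
      rcases hy with hy | hy
      · exact Or.inr hy
      · left
        have hne : Δ ≠ 0 := fun h => hΔ0 (by rw [h, coeff_zero])
        exact Finset.mem_coe.2 (Finset.mem_image.2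
          ⟨y⁻¹, Multiset.mem_toFinset.2 ((mem_roots hne).2 hy), inv_inv y⟩)
    refine hbad.infinite_compl.mono fun y hy => ?_
    simp only [Set.mem_compl_iff, Set.mem_ofPred_eq, not_or] at hy ⊢
    obtain ⟨hy0, hyΔ⟩ := hy
    have hx0 : y⁻¹ ≠ 0 := inv_ne_zero hy0
    have eB : ∀ l, ∑ i, (pol D (H i l)).eval y * (q i).eval y⁻¹ =
        Δ.eval y⁻¹ * (pol D (ms l)).eval y := fun l => by
      have := congrArg (Polynomial.eval y⁻¹) (hB l)
      simp only [eval_finsetSum, eval_mul, eval_rev _ _ _ hx0, inv_inv, mul_assoc,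
        ← Finset.mul_sum] at this
      rw [mul_left_comm] at this
      exact mul_left_cancel₀ (pow_ne_zero _ hx0) this
    have eC : ∑ i, (pol D (m i)).eval y * (q i).eval y⁻¹ =
        y⁻¹ ^ D * (Δ.eval y⁻¹ * (pol (2 * D) e').eval y) := by
      have := congrArg (Polynomial.eval y⁻¹) hC
      simp only [eval_finsetSum, eval_mul, eval_rev _ _ _ hx0, inv_inv, mul_assoc,
        ← Finset.mul_sum] at this
      rw [show y⁻¹ ^ (2 * D) = y⁻¹ ^ D * y⁻¹ ^ D by rw [two_mul, pow_add],
        mul_left_comm, mul_assoc] at this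
      exact mul_left_cancel₀ (pow_ne_zero _ hx0) this
    have eA : ∀ i, ∑ l, (pol D (H i l)).eval y * (q l).eval y = Δ.eval y * (pol D (m i)).eval y :=
      fun i => by simpa [eval_finsetSum, Hp, mp] using congrArg (Polynomial.eval y) (hAe i)
    simp only [eval_mul, eval_pow, eval_X, eval_finsetSum]
    have h1 : Δ.eval y * ∑ i, (pol D (m i)).eval y * (q i).eval y⁻¹ =
        Δ.eval y⁻¹ * ∑ l, (q l).eval y * (pol D (ms l)).eval y := by
      rw [Finset.mul_sum, Finset.mul_sum]
      simp only [← mul_assoc, ← eA, Finset.sum_mul]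
      rw [Finset.sum_comm]
      refine Finset.sum_congr rfl fun l _ => ?_
      calc ∑ i, (pol D (H i l)).eval y * (q l).eval y * (q i).eval y⁻¹
          = (q l).eval y * ∑ i, (pol D (H i l)).eval y * (q i).eval y⁻¹ := by
            rw [Finset.mul_sum]; exact Finset.sum_congr rfl fun i _ => by ring
        _ = _ := by rw [eB l]; ring
    rw [eC] at h1
    apply mul_left_cancel₀ hyΔ
    rw [inv_pow] at h1
    field_simp at h1 ⊢
    linear_combination h1
  have hdvd : X ^ (D + 1) ∣ Δ * pol (2 * D) e' := by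
    rw [hfin, pow_succ]
    refine mul_dvd_mul_left _ (X_dvd_iff.2 ?_)
    rw [finsetSum_coeff]
    refine Finset.sum_eq_zero fun l _ => ?_
    rw [mul_coeff_zero, coeff_pol D _ (fun d hd => sms l d (Or.inr hd)),
      sms l _ (Or.inl (by simp)), mul_zero]
  have hd := Polynomial.prime_X.pow_dvd_of_dvd_mul_left (D + 1)
    (fun h => hΔ0 (X_dvd_iff.1 h)) hdvd
  have h0 := X_pow_dvd_iff.1 hd D (Nat.lt_succ_self D)
  rw [coeff_pol (2 * D) e' (fun d hd => se _ (Or.inr (by push_cast at hd; omega)))] at h0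
  simpa [e'] using h0

end Vale.Agent.P195.Graded
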