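import Vale.Agent.P195.Good

/-!
The vanishing passes to syzygies, and a syzygy of a module without extensions by the algebra is
projective only if the module is.
-/

universe u

open CategoryTheory CategoryTheory.Abelian

namespace Vale.Agent.P195.Graded

variable {R : Type u} [Ring R]

theorem syzygy_transfer [IsNoetherianRing R] (N : ℕ) :
    ∀ (a : ℕ) {X K : ModuleCat.{u} R}, Module.Finite R X → IsSyzygy a X K →
      (∀ i, 1 ≤ i → i ≤ N + a → EV R X R i) → (∀ i, 1 ≤ i → i ≤ N → EV R X X i) →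
      (∀ i, 1 ≤ i → i ≤ N → EV R K R i) ∧ (∀ i, 1 ≤ i → i ≤ N → EV R K K i) ∧
        (Module.Projective R K → Module.Projective R X)
  | 0, _, _, _, ⟨e⟩, hR, hX =>
    ⟨fun i h1 h2 => ev_congr e (LinearEquiv.refl R R) (hR i h1 (by omega)),
      fun i h1 h2 => ev_congr e e (hX i h1 h2), fun _ => Module.Projective.of_equiv e⟩
  | a + 1, X, K, hfX, ⟨Y, P, j, p, hfin, hproj, hj, hp, hex, hK⟩, hR, hX => by
    have hfY : Module.Finite R Y := finite_of_injective_finite j hj
    have hYR : ∀ i, 1 ≤ i → i ≤ N + a → EV R Y R i := by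
      intro i h1 h2
      obtain ⟨i, rfl⟩ := Nat.exists_eq_add_of_le' h1
      exact ev_shift hj hp hex i (hR (i + 2) (by omega) (by omega))
    have hYY : ∀ i, 1 ≤ i → i ≤ N → EV R Y Y i := by
      intro i h1 h2
      obtain ⟨i, rfl⟩ := Nat.exists_eq_add_of_le' h1
      exact ev_shift hj hp hex i (ev_cov hj hp hex (i + 1) (hX (i + 1) (by omega) h2)
        (ev_of_finite_projective (i + 2) (hR (i + 2) (by omega) (by omega))))
    obtain ⟨h1, h2, h3⟩ := syzygy_transfer N a hfY hK hYR hYY
    refine ⟨h1, h2, fun hKp => ?_⟩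
    by_contra hXp
    exact not_projective_syzygy hj hp hex (hR 1 le_rfl (by omega)) hXp (h3 hKp)

end Vale.Agent.P195.Graded
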